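import Mathlib

/-!
# P244: the reaction inequality of a doubly warped flow
-/

open Set Filter
open scoped Topology

namespace Vale.Agent.P244

noncomputable section

variable (p q : ℝ)

/-- The reaction of `∑ p (w + v²)`. -/
def reactK (E F x y w z : ℝ) : ℝ :=
  -2 * (p * x ^ 2 + q * y ^ 2) * (p * (w + x ^ 2) + q * (z + y ^ 2)) -
    2 * (p * x + q * y) * (p * x * w + q * y * z) - 2 * (p * w ^ 2 + q * z ^ 2) + 2 * (p * E * w + q * F * z)

/-- The reaction of `p E + q F`. -/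
def reactS (E F x y : ℝ) : ℝ := 2 * (p * E ^ 2 + q * F ^ 2) - 4 * (p * E * x ^ 2 + q * F * y ^ 2)

/-- The reaction gap at the critical slope one half. -/
def gapHalf (E F x y : ℝ) : ℝ :=
  (p * E ^ 2 + q * F ^ 2) / 2 - 2 * (p * E * x ^ 2 + q * F * y ^ 2) +
    (p * x ^ 2 + q * y ^ 2) * (p * E + q * F) + (p * x + q * y) * (p * E * x + q * F * y) -
    (p * x + q * y) ^ 2 * (p * x ^ 2 + q * y ^ 2) / 2 +
    2 / (p + q) * (p * x ^ 2 + q * y ^ 2 - (p * x + q * y) ^ 2 / 2) ^ 2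

/-- The slope of the reaction gap. -/
def gapSlope (E F x y : ℝ) : ℝ :=
  reactS p q E F x y + 2 * (p * x ^ 2 + q * y ^ 2) * (p * E + q * F) +
    4 * (p * E + q * F) / (p + q) * ((p * x + q * y) ^ 2 / 2 - (p * x ^ 2 + q * y ^ 2))

theorem quartic_lead {p r : ℝ} (hp : 2 ≤ p) (hr : 0 ≤ r) :
    p / 2 ≤ p / 2 * (4 * p ^ 2 - 10 * p + 5) + r * p ^ 2 * (1 - p / 2) ^ 2 := by
  have h : 0 ≤ p / 2 * ((4 * p ^ 2 - 10 * p + 5) - 1) := mul_nonneg (by linarith) (by nlinarith)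
  have h' : 0 ≤ r * p ^ 2 * (1 - p / 2) ^ 2 := by positivity
  linarith

theorem cubic_low {p q r : ℝ} (hp : 2 ≤ p) (hq : 0 ≤ q) (hr : 0 ≤ r) :
    -(p * q) ≤ -(p * q) + r * p ^ 2 * q * (p - 2) := by
  have : 0 ≤ r * p ^ 2 * q * (p - 2) := mul_nonneg (by positivity) (by linarith)
  linarith

theorem middle_low {p q : ℝ} (hp : 2 ≤ p) (hq : 2 ≤ q) :
    p * q ^ 2 / 2 + q * p ^ 2 / 2 ≤ p * q * ((p + q) / 2 - 2) +
      2 / (p + q) * ((p * q) ^ 2 + p * q * (p - 2) * (q - 2) / 2) := by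
  have hP : 0 < p + q := by linarith
  have hpq : p + q ≤ p * q := by nlinarith
  have hpq0 : 0 ≤ p * q := mul_nonneg (by linarith) (by linarith)
  have h1 : 0 ≤ 2 / (p + q) * (p * q * (p - 2) * (q - 2) / 2) :=
    mul_nonneg (by positivity) (div_nonneg (mul_nonneg (mul_nonneg hpq0 (by linarith)) (by linarith)) two_pos.le)
  have h2 : 2 * (p * q) ≤ 2 / (p + q) * (p * q) ^ 2 := by
    rw [div_mul_eq_mul_div, le_div_iff₀ hP, sq]
    linarith [mul_le_mul_of_nonneg_left hpq hpq0]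
  linarith

theorem gapHalf_quartic (p q x y r : ℝ) (hr : 2 / (p + q) = r) :
    gapHalf p q ((p - 1) * x ^ 2) ((q - 1) * y ^ 2) x y =
      (p / 2 * (4 * p ^ 2 - 10 * p + 5) + r * p ^ 2 * (1 - p / 2) ^ 2) * x ^ 4 +
      (-(p * q) + r * p ^ 2 * q * (p - 2)) * (x ^ 2 * (x * y)) +
      (p * q * ((p + q) / 2 - 2) + r * ((p * q) ^ 2 + p * q * (p - 2) * (q - 2) / 2)) * (x ^ 2 * y ^ 2) +
      (-(p * q) + r * q ^ 2 * p * (q - 2)) * (y ^ 2 * (x * y)) +
      (q / 2 * (4 * q ^ 2 - 10 * q + 5) + r * q ^ 2 * (1 - q / 2) ^ 2) * y ^ 4 := by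
  rw [gapHalf, hr]; ring

theorem quad_low_bound {p q : ℝ} (hp : 2 ≤ p) (hq : 2 ≤ q) {x y : ℝ} (hxy : 0 ≤ x * y) :
    p / 2 * (x * (x - q * y)) ^ 2 + q / 2 * (y * (y - p * x)) ^ 2 ≤
      gapHalf p q ((p - 1) * x ^ 2) ((q - 1) * y ^ 2) x y := by
  have hr : 0 ≤ 2 / (p + q) := div_nonneg two_pos.le (by linarith)
  rw [gapHalf_quartic p q x y _ rfl]
  have u1 := mul_le_mul_of_nonneg_right (quartic_lead hp hr) (by positivity : 0 ≤ x ^ 4)
  have u2 := mul_le_mul_of_nonneg_right (quartic_lead hq hr) (by positivity : 0 ≤ y ^ 4)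
  have u3 := mul_le_mul_of_nonneg_right (cubic_low (q := q) hp (by linarith) hr) (mul_nonneg (sq_nonneg x) hxy)
  have u4 := mul_le_mul_of_nonneg_right (cubic_low (q := p) hq (by linarith) hr) (mul_nonneg (sq_nonneg y) hxy)
  have u5 := mul_le_mul_of_nonneg_right (middle_low hp hq) (mul_nonneg (sq_nonneg x) (sq_nonneg y))
  linarith

theorem quad_pos {p q : ℝ} (hp : 2 ≤ p) (hq : 2 ≤ q) {x y : ℝ} (hxy : 0 ≤ x * y) (h0 : x ≠ 0 ∨ y ≠ 0) :
    0 < gapHalf p q ((p - 1) * x ^ 2) ((q - 1) * y ^ 2) x y := by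
  refine lt_of_lt_of_le ?_ (quad_low_bound hp hq hxy)
  by_contra hle
  have hp0 : 0 < p / 2 := by linarith
  have hq0 : 0 < q / 2 := by linarith
  have t1 := mul_nonneg hp0.le (sq_nonneg (x * (x - q * y)))
  have t2 := mul_nonneg hq0.le (sq_nonneg (y * (y - p * x)))
  have z1 : x * (x - q * y) = 0 :=
    pow_eq_zero_iff two_ne_zero |>.1 ((mul_eq_zero.1 (by linarith : p / 2 * (x * (x - q * y)) ^ 2 = 0)).resolve_left hp0.ne')
  have z2 : y * (y - p * x) = 0 :=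
    pow_eq_zero_iff two_ne_zero |>.1 ((mul_eq_zero.1 (by linarith : q / 2 * (y * (y - p * x)) ^ 2 = 0)).resolve_left hq0.ne')
  have hne : p * q - 1 ≠ 0 := by nlinarith
  have hx : x ≠ 0 := by
    rintro rfl
    rcases h0 with h | h
    · exact h rfl
    · exact h (by simpa using z2)
  have hy : y ≠ 0 := by
    rintro rfl
    exact hx (by simpa using z1)
  have h1 : x = q * y := by linarith [(mul_eq_zero.1 z1).resolve_left hx]
  have h2 : y = p * x := by linarith [(mul_eq_zero.1 z2).resolve_left hy]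
  have h3 : y * (p * q - 1) = 0 := by rw [h1] at h2; linarith
  exact hy ((mul_eq_zero.1 h3).resolve_right hne)

theorem opposite_terms {p q σ a b : ℝ} (hp : 2 ≤ p) (hq : 2 ≤ q) (ha : 0 ≤ a) (hσ : 0 ≤ σ) (hσa : σ ≤ p * a) :
    σ ^ 2 * (q * b ^ 2) ≤ p * q * ((p + q - 2) * (a ^ 2 * b ^ 2)) ∧
      p / 2 * (σ ^ 2 * a ^ 2) ≤ p * (p - 1) * σ * a ^ 3 := by
  constructor
  · have hb2 : 0 ≤ q * b ^ 2 := mul_nonneg (by linarith) (sq_nonneg b)
    have h3 := mul_le_mul_of_nonneg_right (pow_le_pow_left₀ hσ hσa 2) hb2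
    have h4 : 0 ≤ (q - 2) * (p * q * (a ^ 2 * b ^ 2)) := mul_nonneg (by linarith) (by positivity)
    linarith
  · have hh : 0 ≤ (p - 1) * a - σ / 2 := by nlinarith
    have := mul_nonneg (by positivity : 0 ≤ p * σ * a ^ 2) hh
    linarith

theorem opposite_eq (p q E F a b σ : ℝ) (h : p * a - q * b = σ) :
    gapHalf p q E F a (-b) = p / 2 * (E + σ * a) ^ 2 + q / 2 * (F - σ * b) ^ 2 -
      σ ^ 2 * (p * a ^ 2 + q * b ^ 2) + p * q * (E * b ^ 2 + F * a ^ 2) + (p - 2) * (p * E * a ^ 2) +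
      (q - 2) * (q * F * b ^ 2) + 2 / (p + q) * (p * a ^ 2 + q * b ^ 2 - σ ^ 2 / 2) ^ 2 := by
  subst h; rw [gapHalf]; generalize 2 / (p + q) = r; ring

theorem gapHalf_pos_opposite {p q : ℝ} (hp : 2 ≤ p) (hq : 2 ≤ q) {E F a b : ℝ} (ha : 0 < a) (hb : 0 ≤ b)
    (hσ : 0 ≤ p * a - q * b) (hE : (p - 1) * a ^ 2 ≤ E) (hF : (q - 1) * b ^ 2 ≤ F) :
    0 < gapHalf p q E F a (-b) := by
  obtain ⟨σ, hσe⟩ : ∃ σ, p * a - q * b = σ := ⟨_, rfl⟩
  rw [hσe] at hσ
  have hσa : σ ≤ p * a := by nlinarith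
  have hk : (0:ℝ) ≤ p - 1 := by linarith
  have hF0 : 0 ≤ F := le_trans (mul_nonneg (by linarith) (sq_nonneg b)) hF
  have hE0 : 0 ≤ E := le_trans (mul_nonneg hk (sq_nonneg a)) hE
  have h0 : (p - 1) * a ^ 2 + σ * a ≤ E + σ * a := by linarith
  have h1 : p / 2 * ((p - 1) * a ^ 2 + σ * a) ^ 2 ≤ p / 2 * (E + σ * a) ^ 2 :=
    mul_le_mul_of_nonneg_left (pow_le_pow_left₀ (add_nonneg (mul_nonneg hk (sq_nonneg a)) (mul_nonneg hσ ha.le)) h0 2) (by linarith)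
  have hpq : 0 ≤ p * q := mul_nonneg (by linarith) (by linarith)
  have h2 := mul_nonneg hpq (add_nonneg (mul_nonneg (sub_nonneg.2 hE) (sq_nonneg b))
    (mul_nonneg (sub_nonneg.2 hF) (sq_nonneg a)))
  obtain ⟨h3, h5⟩ := opposite_terms (b := b) hp hq ha.le hσ hσa
  have h6 : 0 ≤ (p - 2) * (p * E * a ^ 2) := mul_nonneg (by linarith) (by positivity)
  have h7 : 0 ≤ (q - 2) * (q * F * b ^ 2) :=
    mul_nonneg (by linarith) (mul_nonneg (mul_nonneg (by linarith) hF0) (sq_nonneg b))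
  have h8 : 0 ≤ 2 / (p + q) * (p * a ^ 2 + q * b ^ 2 - σ ^ 2 / 2) ^ 2 :=
    mul_nonneg (div_nonneg two_pos.le (by linarith)) (sq_nonneg _)
  have h9 : 0 < p / 2 * ((p - 1) * a ^ 2) ^ 2 :=
    mul_pos (by linarith) (pow_pos (mul_pos (by linarith) (pow_pos ha 2)) 2)
  have h10 : 0 ≤ q / 2 * (F - σ * b) ^ 2 := mul_nonneg (by linarith) (sq_nonneg _)
  rw [opposite_eq p q E F a b σ hσe]
  linarith

theorem gapHalf_symm (p q E F x y : ℝ) : gapHalf q p F E y x = gapHalf p q E F x y := by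
  simp only [gapHalf]; rw [add_comm q p]; ring

theorem gapHalf_neg (p q E F x y : ℝ) : gapHalf p q E F (-x) (-y) = gapHalf p q E F x y := by
  simp only [gapHalf]; ring

/-- The reaction gap is positive on the cone cut out by the gradient estimate. -/
theorem gapHalf_pos {p q : ℝ} (hp : 2 ≤ p) (hq : 2 ≤ q) {E F x y : ℝ} (hE : (p - 1) * x ^ 2 ≤ E)
    (hF : (q - 1) * y ^ 2 ≤ F) (hS : 0 < p * E + q * F) : 0 < gapHalf p q E F x y := by
  by_cases hxy : 0 ≤ x * y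
  · by_cases h0 : x = 0 ∧ y = 0
    · obtain ⟨rfl, rfl⟩ := h0
      simp only [gapHalf, ne_eq, OfNat.ofNat_ne_zero, not_false_eq_true, zero_pow, mul_zero, add_zero, sub_zero,
        zero_div, zero_mul]
      rcases eq_or_ne E 0 with rfl | hne
      · have : 0 < q * F := by linarith
        nlinarith [mul_pos this (pos_of_mul_pos_right this (by linarith : (0:ℝ) ≤ q))]
      · have : 0 < p * E ^ 2 := mul_pos (by linarith) (by positivity)
        nlinarith [mul_nonneg (by linarith : (0:ℝ) ≤ q) (sq_nonneg F)]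
    have hC := quad_pos hp hq hxy (by tauto)
    obtain ⟨e, he⟩ : ∃ e, E = (p - 1) * x ^ 2 + e := ⟨E - (p - 1) * x ^ 2, by ring⟩
    obtain ⟨f, hf⟩ : ∃ f, F = (q - 1) * y ^ 2 + f := ⟨F - (q - 1) * y ^ 2, by ring⟩
    have he0 : 0 ≤ e := by linarith
    have hf0 : 0 ≤ f := by linarith
    have key : gapHalf p q E F x y = gapHalf p q ((p - 1) * x ^ 2) ((q - 1) * y ^ 2) x y +
        p * e * ((3 * p - 3) * x ^ 2 + q * y ^ 2 + q * (x * y)) +
        q * f * ((3 * q - 3) * y ^ 2 + p * x ^ 2 + p * (x * y)) + p * e ^ 2 / 2 + q * f ^ 2 / 2 := by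
      subst he hf; simp only [gapHalf]; ring
    have t1 : 0 ≤ p * e * ((3 * p - 3) * x ^ 2 + q * y ^ 2 + q * (x * y)) :=
      mul_nonneg (mul_nonneg (by linarith) he0) (add_nonneg (add_nonneg (mul_nonneg (by linarith) (sq_nonneg x))
        (mul_nonneg (by linarith) (sq_nonneg y))) (mul_nonneg (by linarith) hxy))
    have t2 : 0 ≤ q * f * ((3 * q - 3) * y ^ 2 + p * x ^ 2 + p * (x * y)) :=
      mul_nonneg (mul_nonneg (by linarith) hf0) (add_nonneg (add_nonneg (mul_nonneg (by linarith) (sq_nonneg y))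
        (mul_nonneg (by linarith) (sq_nonneg x))) (mul_nonneg (by linarith) hxy))
    have t3 : 0 ≤ p * e ^ 2 / 2 := by positivity
    have t4 : 0 ≤ q * f ^ 2 / 2 := by positivity
    rw [key]; linarith
  · rw [not_le] at hxy
    rcases lt_trichotomy x 0 with hx | hx | hx
    · have hy : 0 < y := by nlinarith
      by_cases hs : p * x + q * y ≤ 0
      · have := gapHalf_pos_opposite hp hq (a := -x) (b := y) (by linarith) hy.le (by linarith)
          (by simpa using hE) hF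
        rwa [gapHalf_neg] at this
      · have := gapHalf_pos_opposite hq hp (a := y) (b := -x) hy (by linarith) (by linarith) hF (by simpa using hE)
        rwa [neg_neg, gapHalf_symm] at this
    · simp [hx] at hxy
    · have hy : y < 0 := by nlinarith
      by_cases hs : 0 ≤ p * x + q * y
      · have := gapHalf_pos_opposite hp hq (a := x) (b := -y) hx (by linarith) (by linarith) hE (by simpa using hF)
        rwa [neg_neg] at this
      · have := gapHalf_pos_opposite hq hp (a := -y) (b := x) (by linarith) hx.le (by linarith) (by simpa using hF) hE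
        rwa [gapHalf_neg, gapHalf_symm] at this

/-- The normalised relaxed cone. -/
def cone (δ : ℝ) : Set (ℝ × ℝ × ℝ × ℝ) :=
  {P | 0 ≤ P.1 ∧ 0 ≤ P.2.1 ∧ p * P.1 + q * P.2.1 = 1 ∧ (p - 1) * P.2.2.1 ^ 2 ≤ P.1 + δ ∧
    (q - 1) * P.2.2.2 ^ 2 ≤ P.2.1 + δ}

theorem isCompact_cone {p q : ℝ} (hp : 2 ≤ p) (hq : 2 ≤ q) (δ : ℝ) : IsCompact (cone p q δ) := by
  have hsub : cone p q δ ⊆ Icc 0 1 ×ˢ Icc 0 1 ×ˢ Icc (-(2 + |δ|)) (2 + |δ|) ×ˢ Icc (-(2 + |δ|)) (2 + |δ|) := by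
    rintro ⟨E, F, x, y⟩ ⟨hE, hF, hS, hx, hy⟩
    simp only at hE hF hS hx hy
    have e1 : E ≤ 1 := by nlinarith
    have e2 : F ≤ 1 := by nlinarith
    have b : ∀ k u G : ℝ, 1 ≤ k → G ≤ 1 → k * u ^ 2 ≤ G + δ → u ∈ Icc (-(2 + |δ|)) (2 + |δ|) := fun k u G hk hG h => by
      have h2 : u ^ 2 ≤ 1 + |δ| := le_trans (le_mul_of_one_le_left (sq_nonneg u) hk) (by linarith [le_abs_self δ])
      constructor <;> nlinarith [abs_nonneg δ, sq_nonneg (u - 1), sq_nonneg (u + 1)]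
    exact ⟨⟨hE, e1⟩, ⟨hF, e2⟩, b _ _ _ (by linarith) e1 hx, b _ _ _ (by linarith) e2 hy⟩
  refine (isCompact_Icc.prod (isCompact_Icc.prod (isCompact_Icc.prod isCompact_Icc))).of_isClosed_subset ?_ hsub
  unfold cone
  simp only [Set.ofPred_and]
  refine (isClosed_le continuous_const (by fun_prop)).inter ((isClosed_le continuous_const (by fun_prop)).inter
    ((isClosed_eq (by fun_prop) continuous_const).inter ((isClosed_le (by fun_prop) (by fun_prop)).inter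
      (isClosed_le (by fun_prop) (by fun_prop)))))

theorem exists_gap {p q : ℝ} (hp : 2 ≤ p) (hq : 2 ≤ q) :
    ∃ δ τ, 0 < δ ∧ 0 < τ ∧ ∀ P ∈ cone p q δ, τ ≤ gapHalf p q P.1 P.2.1 P.2.2.1 P.2.2.2 := by
  by_contra hne
  push Not at hne
  choose P hP hlt using fun n : ℕ => hne (1 / ((n : ℝ) + 1)) (1 / ((n : ℝ) + 1)) (by positivity) (by positivity)
  have hmem : ∀ n, P n ∈ cone p q 1 := fun n => by
    obtain ⟨h1, h2, h3, h4, h5⟩ := hP n
    have : 1 / ((n : ℝ) + 1) ≤ 1 := by rw [div_le_one (by positivity)]; linarith [Nat.cast_nonneg (α := ℝ) n]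
    exact ⟨h1, h2, h3, h4.trans (by linarith), h5.trans (by linarith)⟩
  obtain ⟨L, ⟨hL1, hL2, hL3, -, -⟩, φ, hφ, hlim⟩ := (isCompact_cone hp hq 1).tendsto_subseq hmem
  have hε : Tendsto (fun n : ℕ => 1 / ((φ n : ℝ) + 1)) atTop (𝓝 0) :=
    tendsto_one_div_add_atTop_nhds_zero_nat.comp hφ.tendsto_atTop
  have hx : (p - 1) * L.2.2.1 ^ 2 ≤ L.1 := by
    have l1 : Tendsto (fun n => (p - 1) * (P (φ n)).2.2.1 ^ 2) atTop (𝓝 ((p - 1) * L.2.2.1 ^ 2)) :=
      ((by fun_prop : Continuous fun z : ℝ × ℝ × ℝ × ℝ => (p - 1) * z.2.2.1 ^ 2).tendsto L).comp hlim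
    have l2 : Tendsto (fun n => (P (φ n)).1 + 1 / ((φ n : ℝ) + 1)) atTop (𝓝 L.1) := by
      simpa using ((continuous_fst.tendsto L).comp hlim).add hε
    exact le_of_tendsto_of_tendsto' l1 l2 fun n => (hP (φ n)).2.2.2.1
  have hy : (q - 1) * L.2.2.2 ^ 2 ≤ L.2.1 := by
    have l1 : Tendsto (fun n => (q - 1) * (P (φ n)).2.2.2 ^ 2) atTop (𝓝 ((q - 1) * L.2.2.2 ^ 2)) :=
      ((by fun_prop : Continuous fun z : ℝ × ℝ × ℝ × ℝ => (q - 1) * z.2.2.2 ^ 2).tendsto L).comp hlim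
    have l2 : Tendsto (fun n => (P (φ n)).2.1 + 1 / ((φ n : ℝ) + 1)) atTop (𝓝 L.2.1) := by
      simpa using (((continuous_fst.comp continuous_snd).tendsto L).comp hlim).add hε
    exact le_of_tendsto_of_tendsto' l1 l2 fun n => (hP (φ n)).2.2.2.2
  have hg : gapHalf p q L.1 L.2.1 L.2.2.1 L.2.2.2 ≤ 0 := by
    have l1 : Tendsto (fun n => gapHalf p q (P (φ n)).1 (P (φ n)).2.1 (P (φ n)).2.2.1 (P (φ n)).2.2.2) atTop
        (𝓝 (gapHalf p q L.1 L.2.1 L.2.2.1 L.2.2.2)) :=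
      ((by unfold gapHalf; fun_prop : Continuous fun z : ℝ × ℝ × ℝ × ℝ => gapHalf p q z.1 z.2.1 z.2.2.1 z.2.2.2).tendsto L).comp hlim
    exact le_of_tendsto_of_tendsto' l1 hε fun n => (hlt (φ n)).le
  linarith [gapHalf_pos hp hq hx hy (by rw [hL3]; exact one_pos)]

/-- A lower bound, after scaling, for the margin at the slope `1/2 - η`. -/
theorem margin_le {p q : ℝ} (hp : 2 ≤ p) (hq : 2 ≤ q) {E F x y w z η S u : ℝ} (hη : 0 ≤ η)
    (hS : p * E + q * F = S) (hS0 : 0 ≤ S) (hu : p * (w + x ^ 2) + q * (z + y ^ 2) = (1 / 2 - η) * S + u) (hu0 : 0 ≤ u) :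
    gapHalf p q E F x y - η * gapSlope p q E F x y + 2 * η ^ 2 * S ^ 2 / (p + q) -
        4 * η * S / (p + q) * u + 2 / (p + q) * u ^ 2 ≤
      (1 / 2 - η) * reactS p q E F x y - reactK p q E F x y w z := by
  have hP : 0 < p + q := by linarith
  have h1 : 0 ≤ 2 * (p * x ^ 2 + q * y ^ 2) * u * (1 - 2 / (p + q)) := by
    have : 2 / (p + q) ≤ 1 := (div_le_one hP).2 (by linarith)
    exact mul_nonneg (mul_nonneg (by positivity) hu0) (by linarith)
  have h2 : 0 ≤ 2 * u * (p * x + q * y) ^ 2 / (p + q) := by positivity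
  have h3 : 0 ≤ 2 * (p * q / (p + q)) *
      ((w - (E - (p * x + q * y) * x) / 2) - (z - (F - (p * x + q * y) * y) / 2)) ^ 2 := by positivity
  have key : (1 / 2 - η) * reactS p q E F x y - reactK p q E F x y w z =
      gapHalf p q E F x y - η * gapSlope p q E F x y + 2 * η ^ 2 * S ^ 2 / (p + q) -
        4 * η * S / (p + q) * u + 2 / (p + q) * u ^ 2 +
      2 * (p * x ^ 2 + q * y ^ 2) * u * (1 - 2 / (p + q)) + 2 * u * (p * x + q * y) ^ 2 / (p + q) +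
      2 * (p * q / (p + q)) *
        ((w - (E - (p * x + q * y) * x) / 2) - (z - (F - (p * x + q * y) * y) / 2)) ^ 2 := by
    have hu' : u = p * (w + x ^ 2) + q * (z + y ^ 2) - (1 / 2 - η) * (p * E + q * F) := by rw [hS]; linarith
    subst hS hu'
    simp only [gapHalf, gapSlope, reactS, reactK]
    field_simp
    ring
  linarith

theorem scale (p q E F x y : ℝ) {r : ℝ} (hr : 0 ≤ r) :
    gapHalf p q (r * E) (r * F) (√r * x) (√r * y) = r ^ 2 * gapHalf p q E F x y ∧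
      gapSlope p q (r * E) (r * F) (√r * x) (√r * y) = r ^ 2 * gapSlope p q E F x y := by
  obtain ⟨t, ht, rfl⟩ : ∃ t, 0 ≤ t ∧ r = t ^ 2 := ⟨√r, Real.sqrt_nonneg r, (Real.sq_sqrt hr).symm⟩
  rw [Real.sqrt_sq ht]
  constructor <;> simp only [gapHalf, gapSlope, reactS] <;> ring

theorem quad_low {P η : ℝ} (hP : 0 < P) (_hη : 0 ≤ η) (S u : ℝ) :
    -(2 * η ^ 2 * S ^ 2) / P ≤ -(4 * η * S / P) * u + 2 / P * u ^ 2 := by
  have e : -(4 * η * S / P) * u + 2 / P * u ^ 2 - -(2 * η ^ 2 * S ^ 2) / P = 2 / P * (u - η * S) ^ 2 := by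
    field_simp; ring
  have : 0 ≤ 2 / P * (u - η * S) ^ 2 := by positivity
  linarith

theorem mem_cone {p q C₁ E F x y S d : ℝ} (hp : 2 ≤ p) (hq : 2 ≤ q) (hC : 0 ≤ C₁) (hE : 0 ≤ E) (hF : 0 ≤ F)
    (hx : (p - 1) * x ^ 2 ≤ E + C₁ * √E) (hy : (q - 1) * y ^ 2 ≤ F + C₁ * √F) (hSe : p * E + q * F = S)
    (hS0 : 0 < S) (hd : C₁ / √S ≤ d) : (E / S, F / S, x / √S, y / √S) ∈ cone p q d := by
  have hsum : p * (E / S) + q * (F / S) = 1 := by field_simp; linarith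
  have hrr : √S ^ 2 = S := Real.sq_sqrt hS0.le
  have hle : ∀ k G v : ℝ, G ≤ S → (k - 1) * v ^ 2 ≤ G + C₁ * √G → (k - 1) * (v / √S) ^ 2 ≤ G / S + d := by
    intro k G v hGS hv
    have h2 : C₁ * √G ≤ d * S := by
      have h := mul_le_mul_of_nonneg_right hd hS0.le
      rw [show C₁ / √S * S = C₁ * √S by rw [div_mul_eq_mul_div, mul_div_assoc, Real.div_sqrt]] at h
      exact (mul_le_mul_of_nonneg_left (Real.sqrt_le_sqrt hGS) hC).trans h
    rw [div_pow, hrr, mul_div_assoc', div_le_iff₀ hS0, add_mul, div_mul_cancel₀ G hS0.ne']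
    linarith
  have e1 : E ≤ S := by
    have := mul_nonneg (by linarith : (0:ℝ) ≤ q) hF
    nlinarith
  have e2 : F ≤ S := by
    have := mul_nonneg (by linarith : (0:ℝ) ≤ p) hE
    nlinarith
  exact ⟨div_nonneg hE hS0.le, div_nonneg hF hS0.le, hsum, hle p E x e1 hx, hle q F y e2 hy⟩

theorem small_margin {P S η τ g₀ g₁ M u : ℝ} (hS : 0 < S) (hη : 0 ≤ η) (hηM : η * M < τ) (h₀ : τ ≤ g₀)
    (h₁ : g₁ ≤ M) (hq : -(2 * η ^ 2 * S ^ 2) / P ≤ -(4 * η * S / P) * u + 2 / P * u ^ 2) :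
    0 < S ^ 2 * g₀ - η * (S ^ 2 * g₁) + 2 * η ^ 2 * S ^ 2 / P - 4 * η * S / P * u + 2 / P * u ^ 2 := by
  have h3 : η * g₁ ≤ η * M := mul_le_mul_of_nonneg_left h₁ hη
  have h4 : 0 < S ^ 2 * (g₀ - η * g₁) := mul_pos (pow_pos hS 2) (by linarith)
  rw [neg_div] at hq
  linarith

theorem large_margin {P S η g₀ g₁ A B Λ u : ℝ} (hP : 0 < P) (hS : 0 < S) (hη : 0 ≤ η) (hη1 : η ≤ 1 / 4)
    (h₀ : -A ≤ g₀) (h₁ : g₁ ≤ B) (hA : 0 ≤ A) (hB : 0 ≤ B) (hSΛ : S ≤ Λ)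
    (hu : (P * (A + B + 1) + 1) * Λ ≤ u) :
    0 < S ^ 2 * g₀ - η * (S ^ 2 * g₁) + 2 * η ^ 2 * S ^ 2 / P - 4 * η * S / P * u + 2 / P * u ^ 2 := by
  obtain ⟨v, rfl⟩ : ∃ v, u = S * v := ⟨u / S, (mul_div_cancel₀ u hS.ne').symm⟩
  have hU0 : 0 ≤ P * (A + B + 1) + 1 := by positivity
  have hv : P * (A + B + 1) + 1 ≤ v := by
    refine le_of_mul_le_mul_left ?_ hS
    linarith [mul_le_mul_of_nonneg_left hSΛ hU0]
  have hv1 : 1 ≤ v := by
    have : 0 ≤ P * (A + B + 1) := by positivity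
    linarith
  have e : -(4 * η / P) * v + 2 / P * v ^ 2 = v * (2 * v - 4 * η) / P := by field_simp; ring
  have h5 : A + B < -(4 * η / P) * v + 2 / P * v ^ 2 := by
    rw [e, lt_div_iff₀ hP]
    have := mul_le_mul_of_nonneg_right hv1 (by linarith : 0 ≤ 2 * v - 4 * η)
    linarith
  have h4 : η * g₁ ≤ B := (mul_le_mul_of_nonneg_left h₁ hη).trans (mul_le_of_le_one_left hB (by linarith))
  have h6 : 0 ≤ 2 * η ^ 2 / P := by positivity
  have h7 : 0 < S ^ 2 * (g₀ - η * g₁ + 2 * η ^ 2 / P + (-(4 * η / P) * v + 2 / P * v ^ 2)) :=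
    mul_pos (pow_pos hS 2) (by linarith)
  calc (0:ℝ) < _ := h7
    _ = _ := by ring

/-- The reaction lemma: above a slope below one half the excess of `K` over `c S` decreases. -/
theorem reaction_neg {p q : ℝ} (hp : 2 ≤ p) (hq : 2 ≤ q) :
    ∃ c, c < 1 / 2 ∧ ∀ C₁ S₀ : ℝ, 0 ≤ C₁ → 0 < S₀ → ∃ B, 0 ≤ B ∧ ∀ E F x y w z : ℝ,
      0 ≤ E → 0 ≤ F → (p - 1) * x ^ 2 ≤ E + C₁ * √E → (q - 1) * y ^ 2 ≤ F + C₁ * √F →
      S₀ ≤ p * E + q * F → c * (p * E + q * F) + B < p * (w + x ^ 2) + q * (z + y ^ 2) →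
      reactK p q E F x y w z - c * reactS p q E F x y < 0 := by
  obtain ⟨δ, τ, hδ, hτ, hgap⟩ := exists_gap hp hq
  have hcf : Continuous fun z : ℝ × ℝ × ℝ × ℝ => gapSlope p q z.1 z.2.1 z.2.2.1 z.2.2.2 := by
    unfold gapSlope reactS; fun_prop
  obtain ⟨M, hM⟩ := (isCompact_cone hp hq δ).exists_bound_of_continuousOn hcf.continuousOn
  have hP : 0 < p + q := by linarith
  set η := min (1 / 4) (τ / (2 * (|M| + 1))) with hη
  have hη0 : 0 < η := lt_min (by norm_num) (by positivity)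
  have hηM : η * |M| < τ := by
    have h1 : η * (2 * (|M| + 1)) ≤ τ := by
      have := (le_div_iff₀ (by positivity : 0 < 2 * (|M| + 1))).1 (min_le_right (1 / 4) (τ / (2 * (|M| + 1))))
      exact this
    nlinarith [abs_nonneg M]
  refine ⟨1 / 2 - η, by linarith, fun C₁ S₀ hC hS₀ => ?_⟩
  set D := C₁ / √S₀ + δ + 1 with hD
  have hcg : Continuous fun z : ℝ × ℝ × ℝ × ℝ => gapHalf p q z.1 z.2.1 z.2.2.1 z.2.2.2 := by
    unfold gapHalf; fun_prop
  obtain ⟨Mg, hMg⟩ := (isCompact_cone hp hq D).exists_bound_of_continuousOn hcg.continuousOn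
  obtain ⟨Ms, hMs⟩ := (isCompact_cone hp hq D).exists_bound_of_continuousOn hcf.continuousOn
  set U := (p + q) * (|Mg| + |Ms| + 1) + 1 with hU
  set Λ := max S₀ ((C₁ / δ) ^ 2) with hΛ
  have hΛ0 : 0 < Λ := hS₀.trans_le (le_max_left _ _)
  refine ⟨U * Λ, by positivity, fun E F x y w z hE hF hx hy hS hK => ?_⟩
  obtain ⟨S, hSe⟩ : ∃ S, p * E + q * F = S := ⟨_, rfl⟩
  rw [hSe] at hS hK
  have hS0 : 0 < S := hS₀.trans_le hS
  obtain ⟨u, hu⟩ : ∃ u, p * (w + x ^ 2) + q * (z + y ^ 2) = (1 / 2 - η) * S + u :=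
    ⟨p * (w + x ^ 2) + q * (z + y ^ 2) - (1 / 2 - η) * S, by ring⟩
  rw [hu] at hK
  have hu0 : U * Λ < u := by linarith
  have hu0' : 0 ≤ u := le_trans (by positivity) hu0.le
  have hm := margin_le hp hq hη0.le hSe hS0.le hu hu0'
  set r := √S with hr
  have hr0 : 0 < r := Real.sqrt_pos.2 hS0
  have hrr : r ^ 2 = S := Real.sq_sqrt hS0.le
  have e1 : S * (E / S) = E := mul_div_cancel₀ E hS0.ne'
  have e2 : S * (F / S) = F := mul_div_cancel₀ F hS0.ne'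
  have hsc := scale p q (E / S) (F / S) (x / r) (y / r) hS0.le
  rw [e1, e2, ← hr, mul_div_cancel₀ x hr0.ne', mul_div_cancel₀ y hr0.ne'] at hsc
  have hin : ∀ d, C₁ / r ≤ d → (E / S, F / S, x / r, y / r) ∈ cone p q d := fun d hd =>
    mem_cone hp hq hC hE hF hx hy hSe hS0 hd
  have hquad := quad_low hP hη0.le S u
  rw [hsc.1, hsc.2] at hm
  by_cases hbig : (C₁ / δ) ^ 2 ≤ S
  · have hd : C₁ / r ≤ δ := by
      have h1 : C₁ / δ ≤ r := by
        rw [hr, ← Real.sqrt_sq (div_nonneg hC hδ.le)]; exact Real.sqrt_le_sqrt hbig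
      rw [div_le_iff₀ hr0]
      rw [div_le_iff₀ hδ] at h1
      linarith
    have g1 := hgap _ (hin δ hd)
    have g2 := hM _ (hin δ hd)
    rw [Real.norm_eq_abs] at g2
    have := small_margin hS0 hη0.le hηM g1 ((le_abs_self _).trans (g2.trans (le_abs_self M))) hquad
    linarith
  · rw [not_le] at hbig
    have hd : C₁ / r ≤ D := by
      have : C₁ / r ≤ C₁ / √S₀ := div_le_div_of_nonneg_left hC (Real.sqrt_pos.2 hS₀) (Real.sqrt_le_sqrt hS)
      linarith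
    have g1 := hMg _ (hin D hd)
    have g2 := hMs _ (hin D hd)
    rw [Real.norm_eq_abs] at g1 g2
    have := large_margin hP hS0 hη0.le (min_le_left _ _) ((neg_le_of_abs_le g1).trans' (neg_le_neg (le_abs_self Mg)))
      ((le_abs_self _).trans (g2.trans (le_abs_self Ms))) (abs_nonneg Mg) (abs_nonneg Ms)
      (hbig.le.trans (le_max_right _ _)) hu0.le
    linarith

end

end Vale.Agent.P244
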