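import Mathlib
import Vale.Agent.P244.Algebra

/-!
# P244: the reaction inequality when one fibre is flat or negatively curved
-/

open Set Filter
open scoped Topology

namespace Vale.Agent.P244

noncomputable section

theorem gapHalf_semi_pos {p q : ℝ} (hp : 1 ≤ p) (hq : 2 ≤ q) {F y : ℝ} (hF : (q - 1) * y ^ 2 ≤ F) (hF0 : 0 < F) :
    0 < gapHalf p q 0 F 0 y := by
  have e : gapHalf p q 0 F 0 y = q / 2 * (F + q * y ^ 2) ^ 2 - q ^ 3 * y ^ 4 + (q - 2) * (q * F * y ^ 2) +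
      2 / (p + q) * (q * y ^ 2 - (q * y) ^ 2 / 2) ^ 2 := by
    simp only [gapHalf]; ring
  have h1 : 0 ≤ 2 / (p + q) * (q * y ^ 2 - (q * y) ^ 2 / 2) ^ 2 :=
    mul_nonneg (div_nonneg two_pos.le (by linarith)) (sq_nonneg _)
  have h2 : 0 ≤ (q - 2) * (q * F * y ^ 2) := mul_nonneg (by linarith) (by positivity)
  rcases eq_or_ne y 0 with rfl | hy
  · rw [e]
    have : 0 < q / 2 * F ^ 2 := mul_pos (by linarith) (pow_pos hF0 2)
    linarith
  have h3 : ((2 * q - 1) * y ^ 2) ^ 2 ≤ (F + q * y ^ 2) ^ 2 :=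
    pow_le_pow_left₀ (mul_nonneg (by linarith) (sq_nonneg y)) (by linarith) 2
  have h4 := mul_le_mul_of_nonneg_left h3 (by linarith : 0 ≤ q / 2)
  have h5 : 0 < q * y ^ 4 * ((2 * q - 1) ^ 2 / 2 - q ^ 2) :=
    mul_pos (mul_pos (by linarith) (by positivity)) (by nlinarith)
  rw [e]; linarith

theorem mem_of_sq_le {v N : ℝ} (h1 : 1 ≤ N) (h : v ^ 2 ≤ N) : v ∈ Icc (-N) N := by
  constructor <;> nlinarith [sq_nonneg (v - 1), sq_nonneg (v + 1)]

/-- The normalised relaxed cone of the semidefinite case, as a set of `(E, F, x, y)`. -/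
def coneSemi (p q δ : ℝ) : Set (ℝ × ℝ × ℝ × ℝ) :=
  {P | |P.1| ≤ δ ∧ p * P.1 + q * P.2.1 = 1 ∧ P.2.2.1 ^ 2 ≤ δ ∧ (q - 1) * P.2.2.2 ^ 2 ≤ P.2.1 + δ}

theorem isCompact_coneSemi {p q : ℝ} (hp : 1 ≤ p) (hq : 2 ≤ q) (δ : ℝ) : IsCompact (coneSemi p q δ) := by
  set N := 2 + |δ| + (1 + p * |δ|) with hN
  have hsub : coneSemi p q δ ⊆ Icc (-N) N ×ˢ Icc (-N) N ×ˢ Icc (-N) N ×ˢ Icc (-N) N := by
    rintro ⟨E, F, x, y⟩ ⟨hE, hS, hx, hy⟩
    simp only at hE hS hx hy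
    have hd := le_abs_self δ
    have hd0 := abs_nonneg δ
    have hpd : 0 ≤ p * |δ| := mul_nonneg (by linarith) hd0
    have hE' := abs_le.1 hE
    have q1 := mul_le_mul_of_nonneg_left hE'.1 (by linarith : 0 ≤ p)
    have q2 := mul_le_mul_of_nonneg_left hE'.2 (by linarith : 0 ≤ p)
    have q3 := mul_le_mul_of_nonneg_left hd (by linarith : 0 ≤ p)
    have e2 : F ≤ 1 + p * |δ| := by nlinarith
    have e3 : -(1 + p * |δ|) ≤ F := by nlinarith
    have h := le_mul_of_one_le_left (sq_nonneg y) (by linarith : (1:ℝ) ≤ q - 1)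
    have b : ∀ u : ℝ, u ^ 2 ≤ N → u ∈ Icc (-N) N := fun u h2 => by
      constructor <;> nlinarith [sq_nonneg (u - 1), sq_nonneg (u + 1)]
    exact ⟨⟨by linarith, by linarith⟩, ⟨by linarith, by linarith⟩, b x (by linarith), b y (by linarith)⟩
  refine (isCompact_Icc.prod (isCompact_Icc.prod (isCompact_Icc.prod isCompact_Icc))).of_isClosed_subset ?_ hsub
  unfold coneSemi
  simp only [Set.ofPred_and]
  exact (isClosed_le (by fun_prop) continuous_const).inter ((isClosed_eq (by fun_prop) continuous_const).inter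
    ((isClosed_le (by fun_prop) continuous_const).inter (isClosed_le (by fun_prop) (by fun_prop))))

theorem exists_gap_semi {p q : ℝ} (hp : 1 ≤ p) (hq : 2 ≤ q) :
    ∃ δ τ, 0 < δ ∧ 0 < τ ∧ ∀ P ∈ coneSemi p q δ, τ ≤ gapHalf p q P.1 P.2.1 P.2.2.1 P.2.2.2 := by
  by_contra hne
  push Not at hne
  choose P hP hlt using fun n : ℕ => hne (1 / ((n : ℝ) + 1)) (1 / ((n : ℝ) + 1)) (by positivity) (by positivity)
  have hmem : ∀ n, P n ∈ coneSemi p q 1 := fun n => by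
    obtain ⟨h1, h2, h3, h4⟩ := hP n
    have : 1 / ((n : ℝ) + 1) ≤ 1 := by rw [div_le_one (by positivity)]; linarith [Nat.cast_nonneg (α := ℝ) n]
    exact ⟨h1.trans this, h2, h3.trans this, h4.trans (by linarith)⟩
  obtain ⟨L, ⟨-, hL2, -, -⟩, φ, hφ, hlim⟩ := (isCompact_coneSemi hp hq 1).tendsto_subseq hmem
  have hε : Tendsto (fun n : ℕ => 1 / ((φ n : ℝ) + 1)) atTop (𝓝 0) :=
    tendsto_one_div_add_atTop_nhds_zero_nat.comp hφ.tendsto_atTop
  have hE : |L.1| ≤ 0 :=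
    le_of_tendsto_of_tendsto' (((by fun_prop : Continuous fun z : ℝ × ℝ × ℝ × ℝ => |z.1|).tendsto L).comp hlim)
      hε fun n => (hP (φ n)).1
  have hx : L.2.2.1 ^ 2 ≤ 0 :=
    le_of_tendsto_of_tendsto' (((by fun_prop : Continuous fun z : ℝ × ℝ × ℝ × ℝ => z.2.2.1 ^ 2).tendsto L).comp hlim)
      hε fun n => (hP (φ n)).2.2.1
  have hy : (q - 1) * L.2.2.2 ^ 2 ≤ L.2.1 := by
    have l1 : Tendsto (fun n => (q - 1) * (P (φ n)).2.2.2 ^ 2) atTop (𝓝 ((q - 1) * L.2.2.2 ^ 2)) :=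
      ((by fun_prop : Continuous fun z : ℝ × ℝ × ℝ × ℝ => (q - 1) * z.2.2.2 ^ 2).tendsto L).comp hlim
    have l2 : Tendsto (fun n => (P (φ n)).2.1 + 1 / ((φ n : ℝ) + 1)) atTop (𝓝 L.2.1) := by
      simpa using (((continuous_fst.comp continuous_snd).tendsto L).comp hlim).add hε
    exact le_of_tendsto_of_tendsto' l1 l2 fun n => (hP (φ n)).2.2.2
  have hg : gapHalf p q L.1 L.2.1 L.2.2.1 L.2.2.2 ≤ 0 := by
    have l1 : Tendsto (fun n => gapHalf p q (P (φ n)).1 (P (φ n)).2.1 (P (φ n)).2.2.1 (P (φ n)).2.2.2) atTop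
        (𝓝 (gapHalf p q L.1 L.2.1 L.2.2.1 L.2.2.2)) :=
      ((by unfold gapHalf; fun_prop : Continuous fun z : ℝ × ℝ × ℝ × ℝ => gapHalf p q z.1 z.2.1 z.2.2.1 z.2.2.2).tendsto L).comp hlim
    exact le_of_tendsto_of_tendsto' l1 hε fun n => (hlt (φ n)).le
  have hx0 : L.2.2.1 = 0 := (pow_eq_zero_iff two_ne_zero).1 (le_antisymm hx (sq_nonneg _))
  have hE0 : L.1 = 0 := abs_nonpos_iff.1 hE
  rw [hE0, mul_zero, zero_add] at hL2
  have hF : 0 < L.2.1 := pos_of_mul_pos_right (hL2 ▸ one_pos) (by linarith)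
  rw [hE0, hx0] at hg
  linarith [gapHalf_semi_pos hp hq hy hF]

theorem margin_le_semi {p q : ℝ} (hp : 1 ≤ p) (hq : 1 ≤ q) {E F x y w z η S u : ℝ}
    (hS : p * E + q * F = S) (hu : p * (w + x ^ 2) + q * (z + y ^ 2) = (1 / 2 - η) * S + u) (hu0 : 0 ≤ u) :
    gapHalf p q E F x y - η * gapSlope p q E F x y + 2 * η ^ 2 * S ^ 2 / (p + q) -
        4 * η * S / (p + q) * u + 2 / (p + q) * u ^ 2 ≤
      (1 / 2 - η) * reactS p q E F x y - reactK p q E F x y w z := by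
  have hP : 0 < p + q := by linarith
  have h1 : 0 ≤ 2 * (p * x ^ 2 + q * y ^ 2) * u * (1 - 2 / (p + q)) := by
    have : 2 / (p + q) ≤ 1 := (div_le_one hP).2 (by linarith)
    exact mul_nonneg (mul_nonneg (by positivity) hu0) (by linarith)
  have h2 : 0 ≤ 2 * u * (p * x + q * y) ^ 2 / (p + q) := by positivity
  have h3 : 0 ≤ 2 * (p * q / (p + q)) *
      ((w - (E - (p * x + q * y) * x) / 2) - (z - (F - (p * x + q * y) * y) / 2)) ^ 2 := by positivity
  have key : (1 / 2 - η) * reactS p q E F x y - reactK p q E F x y w z =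
      gapHalf p q E F x y - η * gapSlope p q E F x y + 2 * η ^ 2 * S ^ 2 / (p + q) -
        4 * η * S / (p + q) * u + 2 / (p + q) * u ^ 2 +
      2 * (p * x ^ 2 + q * y ^ 2) * u * (1 - 2 / (p + q)) + 2 * u * (p * x + q * y) ^ 2 / (p + q) +
      2 * (p * q / (p + q)) *
        ((w - (E - (p * x + q * y) * x) / 2) - (z - (F - (p * x + q * y) * y) / 2)) ^ 2 := by
    have hu' : u = p * (w + x ^ 2) + q * (z + y ^ 2) - (1 / 2 - η) * (p * E + q * F) := by rw [hS]; linarith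
    subst hS hu'
    simp only [gapHalf, gapSlope, reactS, reactK]
    field_simp
    ring
  linarith

theorem big_u {P η g₀ g₁ S A B L u : ℝ} (hP : 0 < P) (hη : 0 ≤ η) (hη1 : η ≤ 1 / 4) (h₀ : |g₀| ≤ A)
    (h₁ : |g₁| ≤ B) (hS : |S| ≤ L) (hu : L + P * (A + B + 1) + 1 ≤ u) :
    0 < g₀ - η * g₁ + 2 * η ^ 2 * S ^ 2 / P - 4 * η * S / P * u + 2 / P * u ^ 2 := by
  have hL : 0 ≤ L := (abs_nonneg S).trans hS
  have hA : 0 ≤ A := (abs_nonneg g₀).trans h₀
  have hB : 0 ≤ B := (abs_nonneg g₁).trans h₁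
  have hPAB : 0 ≤ P * (A + B + 1) := by positivity
  have hu1 : 1 ≤ u := by linarith
  have hS' := abs_le.1 hS
  have hηS : 4 * η * S ≤ L := by nlinarith [mul_le_mul_of_nonneg_left hS'.2 hη]
  have h5 : P * (A + B) < 2 * u ^ 2 - 4 * η * S * u := by
    have h6 : u * (P * (A + B + 1)) ≤ u * (2 * u - 4 * η * S) :=
      mul_le_mul_of_nonneg_left (by linarith) (by linarith)
    have h7 := mul_le_mul_of_nonneg_right hu1 hPAB
    linarith
  have h6 : η * g₁ ≤ B := by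
    refine (le_abs_self _).trans ?_
    rw [abs_mul, abs_of_nonneg hη]
    exact (mul_le_mul (hη1.trans (by norm_num : (1:ℝ) / 4 ≤ 1)) h₁ (abs_nonneg _) one_pos.le).trans (one_mul B).le
  have h7 : 0 ≤ 2 * η ^ 2 * S ^ 2 / P := by positivity
  have h8 : A + B < -(4 * η * S / P * u) + 2 / P * u ^ 2 := by
    rw [show -(4 * η * S / P * u) + 2 / P * u ^ 2 = (2 * u ^ 2 - 4 * η * S * u) / P by ring, lt_div_iff₀ hP]
    linarith
  linarith [(abs_le.1 h₀).1]

theorem mem_coneSemi {p q C₁ e X E F x y S d : ℝ} (hp : 1 ≤ p) (hq : 2 ≤ q) (hC : 0 ≤ C₁) (hE : |E| ≤ e)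
    (hF : 0 ≤ F) (hx : x ^ 2 ≤ X) (hy : (q - 1) * y ^ 2 ≤ F + C₁ * √F) (hSe : p * E + q * F = S) (hS0 : 0 < S)
    (hd0 : 0 ≤ d) (hd : C₁ * √(1 + p * d) ≤ d * √S) (he : e ≤ d * S) (hX : X ≤ d * S) :
    (E / S, F / S, x / √S, y / √S) ∈ coneSemi p q d := by
  have hrr : √S ^ 2 = S := Real.sq_sqrt hS0.le
  refine ⟨?_, by field_simp; linarith, ?_, ?_⟩
  · rw [abs_div, abs_of_pos hS0, div_le_iff₀ hS0]; linarith
  · rw [div_pow, hrr, div_le_iff₀ hS0]; linarith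
  · have hFS : F ≤ (1 + p * d) * S := by
      have := mul_le_mul_of_nonneg_left ((neg_le_of_abs_le hE).trans' (neg_le_neg he)) (by linarith : 0 ≤ p)
      have := le_mul_of_one_le_left hF (by linarith : (1:ℝ) ≤ q)
      linarith
    have h2 : C₁ * √F ≤ d * S := by
      have h := mul_le_mul_of_nonneg_right hd (Real.sqrt_nonneg S)
      rw [mul_assoc, mul_assoc, Real.mul_self_sqrt hS0.le, ← Real.sqrt_mul (by positivity)] at h
      exact (mul_le_mul_of_nonneg_left (Real.sqrt_le_sqrt hFS) hC).trans h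
    rw [div_pow, hrr, mul_div_assoc', div_le_iff₀ hS0, add_mul, div_mul_cancel₀ F hS0.ne']
    linarith

theorem reaction_neg_semi {p q : ℝ} (hp : 1 ≤ p) (hq : 2 ≤ q) :
    ∃ c, c < 1 / 2 ∧ ∀ C₁ e X : ℝ, 0 ≤ C₁ → 0 ≤ e → 0 ≤ X → ∃ B, 0 ≤ B ∧ ∀ E F x y w z : ℝ,
      |E| ≤ e → 0 ≤ F → x ^ 2 ≤ X → (q - 1) * y ^ 2 ≤ F + C₁ * √F →
      c * (p * E + q * F) + B < p * (w + x ^ 2) + q * (z + y ^ 2) →
      reactK p q E F x y w z - c * reactS p q E F x y < 0 := by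
  obtain ⟨δ, τ, hδ, hτ, hgap⟩ := exists_gap_semi hp hq
  have hcf : Continuous fun z : ℝ × ℝ × ℝ × ℝ => gapSlope p q z.1 z.2.1 z.2.2.1 z.2.2.2 := by
    unfold gapSlope reactS; fun_prop
  have hcg : Continuous fun z : ℝ × ℝ × ℝ × ℝ => gapHalf p q z.1 z.2.1 z.2.2.1 z.2.2.2 := by
    unfold gapHalf; fun_prop
  obtain ⟨M, hM⟩ := (isCompact_coneSemi hp hq δ).exists_bound_of_continuousOn hcf.continuousOn
  have hP : 0 < p + q := by linarith
  set η := min (1 / 4) (τ / (2 * (|M| + 1))) with hη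
  have hη0 : 0 < η := lt_min (by norm_num) (by positivity)
  have hηM : η * |M| < τ := by
    have h1 := (le_div_iff₀ (by positivity : 0 < 2 * (|M| + 1))).1 (min_le_right (1 / 4) (τ / (2 * (|M| + 1))))
    rw [← hη] at h1
    nlinarith [abs_nonneg M]
  refine ⟨1 / 2 - η, by linarith, fun C₁ e X hC he hX => ?_⟩
  -- beyond this threshold the normalised data lie in the good cone
  obtain ⟨Λ, hΛ⟩ : ∃ Λ, Λ = 1 + e / δ + X / δ + (C₁ * √(1 + p * δ) / δ) ^ 2 := ⟨_, rfl⟩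
  have hΛ0 : 0 ≤ Λ := by rw [hΛ]; positivity
  -- below it the raw data lie in a compact box
  obtain ⟨N, hN⟩ : ∃ N, N = 1 + e + X + Λ + p * e + C₁ * (1 + Λ + p * e) := ⟨_, rfl⟩
  have hN0 : 0 ≤ N := by rw [hN]; positivity
  have hbox : IsCompact (Icc (-N) N ×ˢ Icc (-N) N ×ˢ Icc (-N) N ×ˢ Icc (-N) N) :=
    isCompact_Icc.prod (isCompact_Icc.prod (isCompact_Icc.prod isCompact_Icc))
  obtain ⟨A, hA⟩ := hbox.exists_bound_of_continuousOn hcg.continuousOn
  obtain ⟨A', hA'⟩ := hbox.exists_bound_of_continuousOn hcf.continuousOn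
  refine ⟨Λ + p * e + (p + q) * (|A| + |A'| + 1) + 1, by positivity, fun E F x y w z hE hF hx hy hK => ?_⟩
  obtain ⟨S, hSe⟩ : ∃ S, p * E + q * F = S := ⟨_, rfl⟩
  rw [hSe] at hK
  obtain ⟨u, hu⟩ : ∃ u, p * (w + x ^ 2) + q * (z + y ^ 2) = (1 / 2 - η) * S + u :=
    ⟨p * (w + x ^ 2) + q * (z + y ^ 2) - (1 / 2 - η) * S, by ring⟩
  rw [hu] at hK
  have hpe : 0 ≤ p * e := by positivity
  have hu0 : Λ + p * e + (p + q) * (|A| + |A'| + 1) + 1 < u := by linarith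
  have hm := margin_le_semi hp (by linarith) hSe hu (le_trans (by positivity) hu0.le)
  by_cases hbig : Λ ≤ S
  · have hS0 : 0 < S := by
      have : 0 ≤ e / δ + X / δ + (C₁ * √(1 + p * δ) / δ) ^ 2 := by positivity
      linarith
    set r := √S with hr
    have hr0 : 0 < r := Real.sqrt_pos.2 hS0
    have hsc := scale p q (E / S) (F / S) (x / r) (y / r) hS0.le
    rw [mul_div_cancel₀ E hS0.ne', mul_div_cancel₀ F hS0.ne', ← hr, mul_div_cancel₀ x hr0.ne',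
      mul_div_cancel₀ y hr0.ne'] at hsc
    rw [hsc.1, hsc.2] at hm
    have n1 : 0 ≤ e / δ := by positivity
    have n2 : 0 ≤ X / δ := by positivity
    have n3 : 0 ≤ (C₁ * √(1 + p * δ) / δ) ^ 2 := by positivity
    have hin : (E / S, F / S, x / r, y / r) ∈ coneSemi p q δ := by
      refine mem_coneSemi hp hq hC hE hF hx hy hSe hS0 hδ.le ?_ ?_ ?_
      · have h1 : C₁ * √(1 + p * δ) / δ ≤ √S := by
          rw [← Real.sqrt_sq (by positivity : 0 ≤ C₁ * √(1 + p * δ) / δ)]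
          exact Real.sqrt_le_sqrt (by linarith)
        rw [div_le_iff₀ hδ] at h1
        linarith
      · have h1 : e / δ ≤ S := by linarith
        rw [div_le_iff₀ hδ] at h1; linarith
      · have h1 : X / δ ≤ S := by linarith
        rw [div_le_iff₀ hδ] at h1; linarith
    have g1 := hgap _ hin
    have g2 := hM _ hin
    rw [Real.norm_eq_abs] at g2
    have := small_margin hS0 hη0.le hηM g1 ((le_abs_self _).trans (g2.trans (le_abs_self M)))
      (quad_low hP hη0.le S u)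
    linarith
  · rw [not_le] at hbig
    have hE' := abs_le.1 hE
    have p1 := mul_le_mul_of_nonneg_left hE'.1 (by linarith : 0 ≤ p)
    have p2 := mul_le_mul_of_nonneg_left hE'.2 (by linarith : 0 ≤ p)
    have hF1 := le_mul_of_one_le_left hF (by linarith : (1:ℝ) ≤ q)
    have hF2 : F ≤ Λ + p * e := by linarith
    have hS : |S| ≤ Λ + p * e := abs_le.2 ⟨by linarith, by linarith⟩
    have n4 : 0 ≤ C₁ * (1 + Λ + p * e) := by positivity
    have hy2 : y ^ 2 ≤ N := by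
      have h1 : √F ≤ 1 + Λ + p * e := by
        nlinarith [Real.sq_sqrt hF, Real.sqrt_nonneg F, sq_nonneg (√F - 1)]
      have h2 := mul_le_mul_of_nonneg_left h1 hC
      have h3 := le_mul_of_one_le_left (sq_nonneg y) (by linarith : (1:ℝ) ≤ q - 1)
      linarith
    have b : ∀ v : ℝ, v ^ 2 ≤ N → v ∈ Icc (-N) N := fun v h2 => mem_of_sq_le (by linarith) h2
    have hin : (E, F, x, y) ∈ Icc (-N) N ×ˢ Icc (-N) N ×ˢ Icc (-N) N ×ˢ Icc (-N) N :=
      ⟨⟨by linarith, by linarith⟩, ⟨by linarith, by linarith⟩, b x (by linarith), b y hy2⟩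
    have g1 := hA _ hin
    have g2 := hA' _ hin
    rw [Real.norm_eq_abs] at g1 g2
    have := big_u hP hη0.le (min_le_left _ _) (g1.trans (le_abs_self A)) (g2.trans (le_abs_self A')) hS hu0.le
    linarith

end

end Vale.Agent.P244
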