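import Mathlib

/-!
# P244: doubly warped Ricci flows over the circle

The metric is `φ(x,t)² dx² + exp (2 u₁) g₁ + exp (2 u₂) g₂` on `(ℝ/ℤ) × N₁ × N₂`, where `g₁` and `g₂`
are Einstein with constants `p - 1` and `q - 1` (more generally `k` and `l`), and `p`, `q` are the dimensions of the fibres.
-/

open Set

namespace Vale.Agent.P244

noncomputable section

/-- Space-time of the circle factor. -/
def slab (a T : ℝ) : Set (ℝ × ℝ) := univ ×ˢ Ioo a T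

/-- The derivative in `x`. -/
def dX (f : ℝ × ℝ → ℝ) (z : ℝ × ℝ) : ℝ := fderiv ℝ f z (1, 0)

/-- The derivative in `t`. -/
def dT (f : ℝ × ℝ → ℝ) (z : ℝ × ℝ) : ℝ := fderiv ℝ f z (0, 1)

/-- The derivative along arclength. -/
def dS (φ f : ℝ × ℝ → ℝ) (z : ℝ × ℝ) : ℝ := dX f z / φ z

/-- The Ricci flow equations of a doubly warped metric on the time interval `(a, T)`. -/
structure IsFlow (p q : ℕ) (k l a T : ℝ) (φ u₁ u₂ : ℝ × ℝ → ℝ) : Prop where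
  smoothφ : ∀ n : ℕ, ContDiffOn ℝ n φ (slab a T)
  smooth₁ : ∀ n : ℕ, ContDiffOn ℝ n u₁ (slab a T)
  smooth₂ : ∀ n : ℕ, ContDiffOn ℝ n u₂ (slab a T)
  pos : ∀ z ∈ slab a T, 0 < φ z
  periodic : ∀ x t, φ (x + 1, t) = φ (x, t) ∧ u₁ (x + 1, t) = u₁ (x, t) ∧ u₂ (x + 1, t) = u₂ (x, t)
  eqφ : ∀ z ∈ slab a T, dT φ z = φ z *
    ((p : ℝ) * (dS φ (dS φ u₁) z + dS φ u₁ z ^ 2) + (q : ℝ) * (dS φ (dS φ u₂) z + dS φ u₂ z ^ 2))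
  eq₁ : ∀ z ∈ slab a T, dT u₁ z = dS φ (dS φ u₁) z +
    dS φ u₁ z * ((p : ℝ) * dS φ u₁ z + (q : ℝ) * dS φ u₂ z) - k * Real.exp (-2 * u₁ z)
  eq₂ : ∀ z ∈ slab a T, dT u₂ z = dS φ (dS φ u₂) z +
    dS φ u₂ z * ((p : ℝ) * dS φ u₁ z + (q : ℝ) * dS φ u₂ z) - l * Real.exp (-2 * u₂ z)

/-- The scalar curvature of the doubly warped metric. -/
def scal (p q : ℕ) (k l : ℝ) (φ u₁ u₂ : ℝ × ℝ → ℝ) (z : ℝ × ℝ) : ℝ :=
  (p : ℝ) * k * Real.exp (-2 * u₁ z) + (q : ℝ) * l * Real.exp (-2 * u₂ z) -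
    2 * ((p : ℝ) * dS φ (dS φ u₁) z + (q : ℝ) * dS φ (dS φ u₂) z) -
    ((p : ℝ) * dS φ u₁ z ^ 2 + (q : ℝ) * dS φ u₂ z ^ 2) -
    ((p : ℝ) * dS φ u₁ z + (q : ℝ) * dS φ u₂ z) ^ 2

end

end Vale.Agent.P244
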