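import Mathlib
import Vale.Agent.P244.Defs

/-!
# P244: calculus along a moving arclength, and the maximum principle on the circle
-/

open Set Filter
open scoped Topology

namespace Vale.Agent.P244

noncomputable section

variable {a T : ℝ} {φ f g : ℝ × ℝ → ℝ} {z : ℝ × ℝ}

/-- Smoothness on the slab. -/
def Sm (a T : ℝ) (f : ℝ × ℝ → ℝ) : Prop := ∀ n : ℕ, ContDiffOn ℝ n f (slab a T)

theorem isOpen_slab : IsOpen (slab a T) := isOpen_univ.prod isOpen_Ioo

theorem Sm.at (hf : Sm a T f) (hz : z ∈ slab a T) (n : ℕ) : ContDiffAt ℝ n f z :=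
  (hf n).contDiffAt (isOpen_slab.mem_nhds hz)

theorem Sm.diff (hf : Sm a T f) (hz : z ∈ slab a T) : DifferentiableAt ℝ f z :=
  (hf.at hz 1).differentiableAt (by norm_num)

theorem Sm.cont (hf : Sm a T f) : ContinuousOn f (slab a T) := (hf 0).continuousOn

theorem Sm.deriv (hf : Sm a T f) (v : ℝ × ℝ) : Sm a T fun z => fderiv ℝ f z v := fun n =>
  ((hf (n + 1)).fderiv_of_isOpen isOpen_slab (by norm_cast)).clm_apply contDiffOn_const

theorem Sm.dX (hf : Sm a T f) : Sm a T (dX f) := hf.deriv _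

theorem Sm.dT (hf : Sm a T f) : Sm a T (dT f) := hf.deriv _

theorem Sm.add (hf : Sm a T f) (hg : Sm a T g) : Sm a T fun z => f z + g z := fun n => (hf n).add (hg n)

theorem Sm.sub (hf : Sm a T f) (hg : Sm a T g) : Sm a T fun z => f z - g z := fun n => (hf n).sub (hg n)

theorem Sm.mul (hf : Sm a T f) (hg : Sm a T g) : Sm a T fun z => f z * g z := fun n => (hf n).mul (hg n)

theorem Sm.sq (hf : Sm a T f) : Sm a T fun z => f z ^ 2 := fun n => (hf n).pow 2

theorem Sm.const (c : ℝ) : Sm a T fun _ => c := fun _ => contDiffOn_const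

theorem Sm.exp (hf : Sm a T f) (c : ℝ) : Sm a T fun z => Real.exp (c * f z) := fun n =>
  (contDiffOn_const.mul (hf n)).exp

theorem Sm.dS (hφ : Sm a T φ) (hpos : ∀ z ∈ slab a T, 0 < φ z) (hf : Sm a T f) : Sm a T (dS φ f) := fun n =>
  (hf.dX n).div (hφ n) fun w hw => (hpos w hw).ne'

theorem dS_congr (hz : z ∈ slab a T) (h : EqOn f g (slab a T)) : dS φ f z = dS φ g z := by
  rw [dS, dS, dX, dX, Filter.EventuallyEq.fderiv_eq (h.eventuallyEq_of_mem (isOpen_slab.mem_nhds hz))]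

theorem dT_congr (hz : z ∈ slab a T) (h : EqOn f g (slab a T)) : dT f z = dT g z := by
  rw [dT, dT, Filter.EventuallyEq.fderiv_eq (h.eventuallyEq_of_mem (isOpen_slab.mem_nhds hz))]

section rules

variable (hz : z ∈ slab a T) (hf : Sm a T f) (hg : Sm a T g)
include hz hf

theorem dS_exp (c : ℝ) : dS φ (fun w => Real.exp (c * f w)) z = c * Real.exp (c * f z) * dS φ f z := by
  simp only [dS, dX, ((hf.diff hz).hasFDerivAt.const_mul c).exp.fderiv, smul_apply, smul_eq_mul]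
  ring

theorem dT_exp (c : ℝ) : dT (fun w => Real.exp (c * f w)) z = c * Real.exp (c * f z) * dT f z := by
  simp only [dT, ((hf.diff hz).hasFDerivAt.const_mul c).exp.fderiv, smul_apply, smul_eq_mul]
  ring

theorem dS_const_mul (c : ℝ) : dS φ (fun w => c * f w) z = c * dS φ f z := by
  simp only [dS, dX, ((hf.diff hz).hasFDerivAt.const_mul c).fderiv, smul_apply, smul_eq_mul]
  ring

theorem dT_const_mul (c : ℝ) : dT (fun w => c * f w) z = c * dT f z := by
  simp only [dT, ((hf.diff hz).hasFDerivAt.const_mul c).fderiv, smul_apply, smul_eq_mul]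

include hg

theorem dS_add : dS φ (fun w => f w + g w) z = dS φ f z + dS φ g z := by
  simp only [dS, dX, fderiv_fun_add (hf.diff hz) (hg.diff hz), add_apply, add_div]

theorem dS_sub : dS φ (fun w => f w - g w) z = dS φ f z - dS φ g z := by
  simp only [dS, dX, fderiv_fun_sub (hf.diff hz) (hg.diff hz), sub_apply, sub_div]

theorem dS_mul : dS φ (fun w => f w * g w) z = f z * dS φ g z + g z * dS φ f z := by
  simp only [dS, dX, fderiv_fun_mul (hf.diff hz) (hg.diff hz), add_apply, smul_apply, smul_eq_mul]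
  ring

theorem dT_add : dT (fun w => f w + g w) z = dT f z + dT g z := by
  simp only [dT, fderiv_fun_add (hf.diff hz) (hg.diff hz), add_apply]

theorem dT_sub : dT (fun w => f w - g w) z = dT f z - dT g z := by
  simp only [dT, fderiv_fun_sub (hf.diff hz) (hg.diff hz), sub_apply]

theorem dT_mul : dT (fun w => f w * g w) z = f z * dT g z + g z * dT f z := by
  simp only [dT, fderiv_fun_mul (hf.diff hz) (hg.diff hz), add_apply, smul_apply, smul_eq_mul]

end rules

/-- The heat operator with drift `σ`. -/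
def heat (φ σ f : ℝ × ℝ → ℝ) (z : ℝ × ℝ) : ℝ := dT f z - dS φ (dS φ f) z - σ z * dS φ f z

section heatRules

variable {σ : ℝ × ℝ → ℝ} (hφ : Sm a T φ) (hpos : ∀ w ∈ slab a T, 0 < φ w) (hz : z ∈ slab a T) (hf : Sm a T f)
include hφ hpos hz hf

theorem heat_const_mul (c : ℝ) : heat φ σ (fun w => c * f w) z = c * heat φ σ f z := by
  have h : dS φ (dS φ fun w => c * f w) z = c * dS φ (dS φ f) z := by
    rw [dS_congr hz fun w hw => dS_const_mul (φ := φ) hw hf c, dS_const_mul hz (Sm.dS hφ hpos hf) c]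
  rw [heat, heat, dT_const_mul hz hf, h, dS_const_mul hz hf]; ring

theorem heat_exp (c : ℝ) :
    heat φ σ (fun w => Real.exp (c * f w)) z =
      c * Real.exp (c * f z) * heat φ σ f z - c ^ 2 * Real.exp (c * f z) * dS φ f z ^ 2 := by
  have h : dS φ (dS φ fun w => Real.exp (c * f w)) z =
      c * Real.exp (c * f z) * dS φ (dS φ f) z + c ^ 2 * Real.exp (c * f z) * dS φ f z ^ 2 := by
    rw [dS_congr hz fun w hw => dS_exp (φ := φ) hw hf c,
      dS_mul hz ((Sm.const c).mul (hf.exp c)) (Sm.dS hφ hpos hf), dS_const_mul hz (hf.exp c), dS_exp hz hf]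
    ring
  rw [heat, heat, dT_exp hz hf, h, dS_exp hz hf]; ring

variable (hg : Sm a T g)
include hg

theorem heat_add : heat φ σ (fun w => f w + g w) z = heat φ σ f z + heat φ σ g z := by
  have h : dS φ (dS φ fun w => f w + g w) z = dS φ (dS φ f) z + dS φ (dS φ g) z := by
    rw [dS_congr hz fun w hw => dS_add (φ := φ) hw hf hg, dS_add hz (Sm.dS hφ hpos hf) (Sm.dS hφ hpos hg)]
  rw [heat, heat, heat, dT_add hz hf hg, h, dS_add hz hf hg]; ring

theorem heat_sub : heat φ σ (fun w => f w - g w) z = heat φ σ f z - heat φ σ g z := by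
  have h : dS φ (dS φ fun w => f w - g w) z = dS φ (dS φ f) z - dS φ (dS φ g) z := by
    rw [dS_congr hz fun w hw => dS_sub (φ := φ) hw hf hg, dS_sub hz (Sm.dS hφ hpos hf) (Sm.dS hφ hpos hg)]
  rw [heat, heat, heat, dT_sub hz hf hg, h, dS_sub hz hf hg]; ring

theorem heat_mul :
    heat φ σ (fun w => f w * g w) z = f z * heat φ σ g z + g z * heat φ σ f z - 2 * dS φ f z * dS φ g z := by
  have hf' := Sm.dS hφ hpos hf
  have hg' := Sm.dS hφ hpos hg
  have h : dS φ (dS φ fun w => f w * g w) z =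
      f z * dS φ (dS φ g) z + g z * dS φ (dS φ f) z + 2 * dS φ f z * dS φ g z := by
    rw [dS_congr hz fun w hw => dS_mul (φ := φ) hw hf hg, dS_add hz (hf.mul hg') (hg.mul hf'), dS_mul hz hf hg',
      dS_mul hz hg hf']
    ring
  rw [heat, heat, heat, dT_mul hz hf hg, h, dS_mul hz hf hg]; ring

end heatRules

/-- Time and arclength derivatives fail to commute by the rate of change of arclength. -/
theorem dT_dS (hφ : Sm a T φ) (hpos : ∀ w ∈ slab a T, 0 < φ w) (hz : z ∈ slab a T) (hf : Sm a T f) :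
    dT (dS φ f) z = dS φ (dT f) z - dT φ z / φ z * dS φ f z := by
  have hne := (hpos z hz).ne'
  have hsym : dT (dX f) z = dX (dT f) z := by
    have h2 := (hf.at hz 2).isSymmSndFDerivAt (by simp)
    have hdd : DifferentiableAt ℝ (fderiv ℝ f) z :=
      ((hf.at hz 2).fderiv_right (m := 1) (by norm_num)).differentiableAt (by norm_num)
    have e : ∀ v, fderiv ℝ (fun y => fderiv ℝ f y v) z = (fderiv ℝ (fderiv ℝ f) z).flip v := fun v => by
      rw [fderiv_clm_apply hdd (differentiableAt_const v)]; simp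
    change fderiv ℝ (fun y => fderiv ℝ f y (1, 0)) z (0, 1) = fderiv ℝ (fun y => fderiv ℝ f y (0, 1)) z (1, 0)
    rw [e, e]
    exact h2 (0, 1) (1, 0)
  have h := (((hf.dX).diff hz).hasFDerivAt.fun_mul ((hasDerivAt_inv hne).comp_hasFDerivAt z (hφ.diff hz).hasFDerivAt))
  have e : dS φ f = fun w => dX f w * (φ w)⁻¹ := funext fun w => div_eq_mul_inv _ _
  rw [dT, e]
  change fderiv ℝ (fun w => dX f w * ((fun y => y⁻¹) ∘ φ) w) z (0, 1) = _
  rw [h.fderiv]
  simp only [add_apply, smul_apply, smul_eq_mul, Function.comp_apply, dS]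
  rw [← dT, ← dT, hsym]
  field_simp
  ring

theorem hasDerivAt_slice_x (hf : Sm a T f) {x t : ℝ} (hz : (x, t) ∈ slab a T) :
    HasDerivAt (fun y => f (y, t)) (dX f (x, t)) x :=
  (hf.diff hz).hasFDerivAt.comp_hasDerivAt x ((hasDerivAt_id' x).prodMk (hasDerivAt_const x t))

theorem hasDerivAt_slice_t (hf : Sm a T f) {x t : ℝ} (hz : (x, t) ∈ slab a T) :
    HasDerivAt (fun s => f (x, s)) (dT f (x, t)) t :=
  (hf.diff hz).hasFDerivAt.comp_hasDerivAt t ((hasDerivAt_const t x).prodMk (hasDerivAt_id' t))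

theorem second_deriv_nonpos {g g' : ℝ → ℝ} {x g'' : ℝ} (hg : ∀ y, HasDerivAt g (g' y) y)
    (hg' : HasDerivAt g' g'' x) (hmax : IsLocalMax g x) : g' x = 0 ∧ g'' ≤ 0 := by
  have h0 : g' x = 0 := hmax.hasDerivAt_eq_zero (hg x)
  refine ⟨h0, ?_⟩
  by_contra hlt
  have hd : deriv g = g' := funext fun y => (hg y).deriv
  have hmin : IsLocalMin g x := isLocalMin_of_deriv_deriv_pos (by rw [hd, hg'.deriv]; linarith)
    (by rw [hd, h0]) (hg x).continuousAt
  have hconst : g =ᶠ[𝓝 x] fun _ => g x := by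
    filter_upwards [hmax, hmin] with y h1 h2; exact le_antisymm h1 h2
  have hg0 : g' =ᶠ[𝓝 x] fun _ => (0 : ℝ) := by
    filter_upwards [hconst.eventuallyEq_nhds] with y hy
    rw [← (hg y).deriv, hy.deriv_eq, deriv_const]
  have := (hg'.congr_of_eventuallyEq hg0.symm).unique (hasDerivAt_const x (0 : ℝ))
  linarith

/-- Periodicity in `x` on the slab. -/
def Per (a T : ℝ) (f : ℝ × ℝ → ℝ) : Prop := ∀ z ∈ slab a T, f (z.1 + 1, z.2) = f z

theorem periodic_fderiv (hf : Per a T f) (hz : z ∈ slab a T) (v : ℝ × ℝ) :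
    fderiv ℝ f (z.1 + 1, z.2) v = fderiv ℝ f z v := by
  have h : (fun w : ℝ × ℝ => f (w + (1, 0))) =ᶠ[𝓝 z] f := by
    filter_upwards [isOpen_slab.mem_nhds hz] with w hw
    rw [← hf w hw]; congr 1; ext <;> simp
  have e := h.fderiv_eq (𝕜 := ℝ)
  rw [fderiv_comp_add_right] at e
  rw [show (z.1 + 1, z.2) = z + ((1 : ℝ), (0 : ℝ)) from Prod.ext rfl (add_zero _).symm, e]

theorem Per.dX (hf : Per a T f) : Per a T (dX f) := fun _ hz => periodic_fderiv hf hz _

theorem Per.dS (hφ : Per a T φ) (hf : Per a T f) : Per a T (dS φ f) := fun w hw => by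
  simp only [Vale.Agent.P244.dS, hf.dX w hw, hφ w hw]

theorem Per.reduce (hf : Per a T f) (hz : z ∈ slab a T) : ∃ y ∈ Icc (0 : ℝ) 1, f (y, z.2) = f z := by
  have hper : Function.Periodic (fun x => f (x, z.2)) 1 := fun x => hf (x, z.2) ⟨mem_univ _, hz.2⟩
  obtain ⟨y, hy, he⟩ := hper.exists_mem_Ico₀ one_pos z.1
  exact ⟨y, Ico_subset_Icc_self hy, he.symm⟩

/-- A periodic continuous function is bounded on one time slice. -/
theorem exists_slice_bound (hf : ContinuousOn f (slab a T)) (hper : Per a T f) {t₀ : ℝ} (ht₀ : t₀ ∈ Ioo a T) :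
    ∃ M, ∀ x, f (x, t₀) ≤ M := by
  obtain ⟨M, hM⟩ := (isCompact_Icc (a := (0:ℝ)) (b := 1)).exists_bound_of_continuousOn
    (f := fun x => f (x, t₀)) (hf.comp (by fun_prop) fun x _ => ⟨mem_univ _, ht₀⟩)
  refine ⟨M, fun x => ?_⟩
  obtain ⟨y, hy, he⟩ := hper.reduce (z := (x, t₀)) ⟨mem_univ _, ht₀⟩
  rw [← he]
  exact (le_abs_self _).trans (hM y hy)

theorem dS_snd (φ : ℝ × ℝ → ℝ) : dS φ (fun z : ℝ × ℝ => z.2) = fun _ => 0 := by
  funext z
  simp [dS, dX, fderiv_snd]

theorem heat_snd (φ σ : ℝ × ℝ → ℝ) (z : ℝ × ℝ) : heat φ σ (fun w : ℝ × ℝ => w.2) z = 1 := by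
  rw [heat, dS_snd]
  simp [dS, dX, dT, fderiv_snd]

/-- The maximum principle on the circle. -/
theorem max_principle {σ : ℝ × ℝ → ℝ} (hφ : Sm a T φ) (hpos : ∀ w ∈ slab a T, 0 < φ w) (hf : Sm a T f)
    (hper : Per a T f) {t₀ M : ℝ} (ht₀ : t₀ ∈ Ioo a T) (hinit : ∀ x, f (x, t₀) ≤ M)
    (hcrit : ∀ w ∈ slab a T, t₀ < w.2 → M < f w → dS φ f w = 0 → dS φ (dS φ f) w ≤ 0 → heat φ σ f w < 0) :
    ∀ x, ∀ t ∈ Ico t₀ T, f (x, t) ≤ M := by
  intro x t ht
  by_contra hlt
  rw [not_le] at hlt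
  have hsub : Icc (0:ℝ) 1 ×ˢ Icc t₀ t ⊆ slab a T := fun w hw =>
    ⟨mem_univ _, ht₀.1.trans_le hw.2.1, lt_of_le_of_lt hw.2.2 ht.2⟩
  obtain ⟨⟨y, s⟩, ⟨hy, hs⟩, hmax⟩ := (isCompact_Icc.prod isCompact_Icc).exists_isMaxOn
    ((nonempty_Icc.2 zero_le_one).prod (nonempty_Icc.2 ht.1)) (hf.cont.mono hsub)
  have hw : (y, s) ∈ slab a T := hsub ⟨hy, hs⟩
  have hall : ∀ x', ∀ s' ∈ Icc t₀ t, f (x', s') ≤ f (y, s) := by
    intro x' s' hs'
    have hm : (x', s') ∈ slab a T := ⟨mem_univ _, ht₀.1.trans_le hs'.1, lt_of_le_of_lt hs'.2 ht.2⟩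
    obtain ⟨y', hy', he⟩ := hper.reduce hm
    rw [← he]; exact hmax ⟨hy', hs'⟩
  have hbig : M < f (y, s) := hlt.trans_le (hall x t (right_mem_Icc.2 ht.1))
  have hs0 : t₀ < s := by
    refine lt_of_le_of_ne hs.1 fun e => ?_
    have := hinit y
    rw [e] at this; linarith
  have hloc : IsLocalMax (fun y' => f (y', s)) y := Eventually.of_forall fun y' => hall y' s hs
  have hmem : ∀ y' : ℝ, (y', s) ∈ slab a T := fun y' => ⟨mem_univ _, hw.2⟩
  obtain ⟨h1, h2⟩ := second_deriv_nonpos (fun y' => hasDerivAt_slice_x hf (hmem y'))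
    (hasDerivAt_slice_x hf.dX hw) hloc
  have hD : dS φ f (y, s) = 0 := by rw [dS, h1, zero_div]
  have hDD : dS φ (dS φ f) (y, s) ≤ 0 := by
    have e : HasDerivAt (fun y' => dS φ f (y', s)) (dX (dX f) (y, s) / φ (y, s)) y := by
      refine ((hasDerivAt_slice_x hf.dX hw).div (hasDerivAt_slice_x hφ hw) (hpos _ hw).ne').congr_deriv ?_
      rw [h1]; field_simp [(hpos _ hw).ne']; ring
    rw [dS, (hasDerivAt_slice_x (Sm.dS hφ hpos hf) hw).unique e]
    exact div_nonpos_of_nonpos_of_nonneg (div_nonpos_of_nonpos_of_nonneg h2 (hpos _ hw).le) (hpos _ hw).le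
  have hneg := hcrit (y, s) hw hs0 hbig hD hDD
  have hdt : dT f (y, s) < 0 := by rw [heat, hD, mul_zero, sub_zero] at hneg; linarith
  have hge : 0 ≤ dT f (y, s) := by
    have hd := (hasDerivAt_slice_t hf hw).hasDerivWithinAt (s := Iio s)
    rw [hasDerivWithinAt_iff_tendsto_slope' self_notMem_Iio] at hd
    refine ge_of_tendsto hd ?_
    filter_upwards [Ioo_mem_nhdsLT hs0] with r hr
    rw [slope_def_field]
    exact div_nonneg_of_nonpos (by linarith [hall y r ⟨hr.1.le, hr.2.le.trans hs.2⟩]) (by linarith [hr.2])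
  linarith

end

end Vale.Agent.P244
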