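import Mathlib
import Vale.Agent.P244.Defs
import Vale.Agent.P244.Calculus
import Vale.Agent.P244.Algebra

/-!
# P244: evolution equations and a priori estimates of a doubly warped flow
-/

open Set

namespace Vale.Agent.P244

noncomputable section

/-- The fibre curvature term. -/
def Ef (k : ℝ) (u : ℝ × ℝ → ℝ) : ℝ × ℝ → ℝ := fun z => k * Real.exp (-2 * u z)

/-- The mean curvature of the fibres. -/
def sig (p q : ℝ) (φ u₁ u₂ : ℝ × ℝ → ℝ) : ℝ × ℝ → ℝ := fun z => p * dS φ u₁ z + q * dS φ u₂ z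

/-- The squared second fundamental form of the fibres. -/
def Qf (p q : ℝ) (φ u₁ u₂ : ℝ × ℝ → ℝ) : ℝ × ℝ → ℝ := fun z =>
  p * (dS φ u₁ z * dS φ u₁ z) + q * (dS φ u₂ z * dS φ u₂ z)

/-- Minus the Ricci curvature of the circle direction. -/
def Kf (p q : ℝ) (φ u₁ u₂ : ℝ × ℝ → ℝ) : ℝ × ℝ → ℝ := fun z =>
  p * (dS φ (dS φ u₁) z + dS φ u₁ z * dS φ u₁ z) + q * (dS φ (dS φ u₂) z + dS φ u₂ z * dS φ u₂ z)

/-- The total scalar curvature of the fibres. -/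
def Sf (p q k l : ℝ) (u₁ u₂ : ℝ × ℝ → ℝ) : ℝ × ℝ → ℝ := fun z => p * Ef k u₁ z + q * Ef l u₂ z

theorem cast_sub_one_nonneg {p : ℕ} (hp : 1 ≤ p) : (0 : ℝ) ≤ (p : ℝ) - 1 := by
  have : (1 : ℝ) ≤ p := by exact_mod_cast hp
  linarith

namespace IsFlow

variable {p q : ℕ} {k l a T : ℝ} {φ u₁ u₂ : ℝ × ℝ → ℝ} (h : IsFlow p q k l a T φ u₁ u₂) {z : ℝ × ℝ}
include h

theorem symm : IsFlow q p l k a T φ u₂ u₁ where
  smoothφ := h.smoothφ
  smooth₁ := h.smooth₂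
  smooth₂ := h.smooth₁
  pos := h.pos
  periodic x t := ⟨(h.periodic x t).1, (h.periodic x t).2.2, (h.periodic x t).2.1⟩
  eqφ z hz := by rw [h.eqφ z hz]; ring
  eq₁ z hz := by rw [h.eq₂ z hz]; ring
  eq₂ z hz := by rw [h.eq₁ z hz]; ring

theorem smP : Sm a T φ := h.smoothφ
theorem smU : Sm a T u₁ := h.smooth₁
theorem smV : Sm a T (dS φ u₁) := Sm.dS h.smP h.pos h.smU
theorem smW : Sm a T (dS φ (dS φ u₁)) := Sm.dS h.smP h.pos h.smV
theorem perP : Per a T φ := fun z _ => (h.periodic z.1 z.2).1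
theorem perU : Per a T u₁ := fun z _ => (h.periodic z.1 z.2).2.1
theorem perV : Per a T (dS φ u₁) := Per.dS h.perP h.perU
theorem perW : Per a T (dS φ (dS φ u₁)) := Per.dS h.perP h.perV
theorem smE (m : ℝ) : Sm a T (Ef m u₁) := (Sm.const m).mul (h.smU.exp (-2))

theorem sig_symm : sig q p φ u₂ u₁ = sig p q φ u₁ u₂ := funext fun _ => add_comm _ _
theorem Qf_symm : Qf q p φ u₂ u₁ = Qf p q φ u₁ u₂ := funext fun _ => add_comm _ _

theorem heat_u (hz : z ∈ slab a T) :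
    heat φ (sig p q φ u₁ u₂) u₁ z = -Ef k u₁ z := by
  rw [heat, h.eq₁ z hz]; simp only [sig, Ef]; ring

theorem dS_sig (hz : z ∈ slab a T) :
    dS φ (sig p q φ u₁ u₂) z = p * dS φ (dS φ u₁) z + q * dS φ (dS φ u₂) z := by
  change dS φ (fun w => (p : ℝ) * dS φ u₁ w + (q : ℝ) * dS φ u₂ w) z = _
  rw [dS_add hz ((Sm.const _).mul h.smV) ((Sm.const _).mul h.symm.smV), dS_const_mul hz h.smV,
    dS_const_mul hz h.symm.smV]

theorem smSig : Sm a T (sig p q φ u₁ u₂) := ((Sm.const _).mul h.smV).add ((Sm.const _).mul h.symm.smV)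

theorem smQ : Sm a T (Qf p q φ u₁ u₂) :=
  ((Sm.const _).mul (h.smV.mul h.smV)).add ((Sm.const _).mul (h.symm.smV.mul h.symm.smV))

theorem dS_E (hz : z ∈ slab a T) (m : ℝ) : dS φ (Ef m u₁) z = -2 * Ef m u₁ z * dS φ u₁ z := by
  change dS φ (fun w => m * Real.exp (-2 * u₁ w)) z = _
  rw [dS_const_mul hz (h.smU.exp (-2)), dS_exp hz h.smU]; simp only [Ef]; ring

theorem phi_rate (hz : z ∈ slab a T) : dT φ z / φ z = Kf p q φ u₁ u₂ z := by
  rw [h.eqφ z hz, mul_div_cancel_left₀ _ (h.pos z hz).ne']; simp only [Kf, sq]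

theorem dT_v (hz : z ∈ slab a T) :
    dT (dS φ u₁) z = dS φ (dS φ (dS φ u₁)) z + sig p q φ u₁ u₂ z * dS φ (dS φ u₁) z +
      2 * Ef k u₁ z * dS φ u₁ z - Qf p q φ u₁ u₂ z * dS φ u₁ z := by
  have e : EqOn (dT u₁)
      (fun w => dS φ (dS φ u₁) w + dS φ u₁ w * sig p q φ u₁ u₂ w - Ef k u₁ w) (slab a T) :=
    fun w hw => by rw [h.eq₁ w hw]; rfl
  rw [dT_dS h.smP h.pos hz h.smU, dS_congr hz e, h.phi_rate hz,
    dS_sub hz (h.smW.add (h.smV.mul h.smSig)) (h.smE _), dS_add hz h.smW (h.smV.mul h.smSig),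
    dS_mul hz h.smV h.smSig, h.dS_sig hz, h.dS_E hz]
  simp only [sig, Qf, Kf]; ring

theorem heat_v (hz : z ∈ slab a T) :
    heat φ (sig p q φ u₁ u₂) (dS φ u₁) z =
      2 * Ef k u₁ z * dS φ u₁ z - Qf p q φ u₁ u₂ z * dS φ u₁ z := by
  rw [heat, h.dT_v hz]; ring

theorem dS_Q (hz : z ∈ slab a T) :
    dS φ (Qf p q φ u₁ u₂) z =
      2 * (p * dS φ u₁ z * dS φ (dS φ u₁) z + q * dS φ u₂ z * dS φ (dS φ u₂) z) := by
  change dS φ (fun w => (p : ℝ) * (dS φ u₁ w * dS φ u₁ w) + (q : ℝ) * (dS φ u₂ w * dS φ u₂ w)) z = _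
  rw [dS_add hz ((Sm.const _).mul (h.smV.mul h.smV)) ((Sm.const _).mul (h.symm.smV.mul h.symm.smV)),
    dS_const_mul hz (h.smV.mul h.smV), dS_const_mul hz (h.symm.smV.mul h.symm.smV), dS_mul hz h.smV h.smV,
    dS_mul hz h.symm.smV h.symm.smV]
  ring

theorem heat_w (hz : z ∈ slab a T) :
    heat φ (sig p q φ u₁ u₂) (dS φ (dS φ u₁)) z =
      -2 * Qf p q φ u₁ u₂ z * dS φ (dS φ u₁) z -
        2 * dS φ u₁ z * (p * dS φ u₁ z * dS φ (dS φ u₁) z + q * dS φ u₂ z * dS φ (dS φ u₂) z) +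
        2 * Ef k u₁ z * (dS φ (dS φ u₁) z - 2 * (dS φ u₁ z * dS φ u₁ z)) := by
  have hW' := Sm.dS h.smP h.pos h.smW
  have hA := h.smSig.mul h.smW
  have hB := ((Sm.const (2 : ℝ)).mul (h.smE k)).mul h.smV
  have hC := h.smQ.mul h.smV
  rw [heat, dT_dS h.smP h.pos hz h.smV, dS_congr hz fun w hw => h.dT_v hw, h.phi_rate hz,
    dS_sub hz ((hW'.add hA).add hB) hC, dS_add hz (hW'.add hA) hB, dS_add hz hW' hA, dS_mul hz h.smSig h.smW,
    dS_mul hz ((Sm.const (2 : ℝ)).mul (h.smE _)) h.smV, dS_mul hz h.smQ h.smV, dS_const_mul hz (h.smE _),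
    h.dS_E hz, h.dS_sig hz, h.dS_Q hz]
  simp only [Qf, Kf]; ring

theorem smK : Sm a T (Kf p q φ u₁ u₂) :=
  ((Sm.const _).mul (h.smW.add (h.smV.mul h.smV))).add
    ((Sm.const _).mul (h.symm.smW.add (h.symm.smV.mul h.symm.smV)))

theorem smS : Sm a T (Sf p q k l u₁ u₂) := ((Sm.const _).mul (h.smE _)).add ((Sm.const _).mul (h.symm.smE _))

theorem heat_K (hz : z ∈ slab a T) :
    heat φ (sig p q φ u₁ u₂) (Kf p q φ u₁ u₂) z =
      reactK p q (Ef k u₁ z) (Ef l u₂ z) (dS φ u₁ z) (dS φ u₂ z)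
        (dS φ (dS φ u₁) z) (dS φ (dS φ u₂) z) := by
  have e₁ := h.heat_v hz
  have e₂ := h.symm.heat_v hz
  have f₁ := h.heat_w hz
  have f₂ := h.symm.heat_w hz
  rw [h.sig_symm, h.Qf_symm] at e₂ f₂
  change heat φ (sig p q φ u₁ u₂) (fun w => (p : ℝ) * (dS φ (dS φ u₁) w + dS φ u₁ w * dS φ u₁ w) +
    (q : ℝ) * (dS φ (dS φ u₂) w + dS φ u₂ w * dS φ u₂ w)) z = _
  rw [heat_add h.smP h.pos hz ((Sm.const _).mul (h.smW.add (h.smV.mul h.smV)))
      ((Sm.const _).mul (h.symm.smW.add (h.symm.smV.mul h.symm.smV))),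
    heat_const_mul h.smP h.pos hz (h.smW.add (h.smV.mul h.smV)),
    heat_const_mul h.smP h.pos hz (h.symm.smW.add (h.symm.smV.mul h.symm.smV)),
    heat_add h.smP h.pos hz h.smW (h.smV.mul h.smV), heat_add h.smP h.pos hz h.symm.smW (h.symm.smV.mul h.symm.smV),
    heat_mul h.smP h.pos hz h.smV h.smV, heat_mul h.smP h.pos hz h.symm.smV h.symm.smV, e₁, e₂, f₁, f₂]
  simp only [Qf, reactK]; ring

theorem heat_E (hz : z ∈ slab a T) :
    heat φ (sig p q φ u₁ u₂) (Ef k u₁) z =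
      2 * Ef k u₁ z ^ 2 - 4 * Ef k u₁ z * dS φ u₁ z ^ 2 := by
  change heat φ (sig p q φ u₁ u₂) (fun w => k * Real.exp (-2 * u₁ w)) z = _
  rw [heat_const_mul h.smP h.pos hz (h.smU.exp (-2)), heat_exp h.smP h.pos hz h.smU, h.heat_u hz]
  simp only [Ef]; ring

theorem heat_S (hz : z ∈ slab a T) :
    heat φ (sig p q φ u₁ u₂) (Sf p q k l u₁ u₂) z =
      reactS p q (Ef k u₁ z) (Ef l u₂ z) (dS φ u₁ z) (dS φ u₂ z) := by
  have e₂ := h.symm.heat_E hz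
  rw [h.sig_symm] at e₂
  change heat φ (sig p q φ u₁ u₂)
    (fun w => (p : ℝ) * Ef k u₁ w + (q : ℝ) * Ef l u₂ w) z = _
  rw [heat_add h.smP h.pos hz ((Sm.const _).mul (h.smE _)) ((Sm.const _).mul (h.symm.smE _)),
    heat_const_mul h.smP h.pos hz (h.smE _), heat_const_mul h.smP h.pos hz (h.symm.smE _), h.heat_E hz, e₂]
  simp only [reactS]; ring

/-- Warping functions with positive fibre constant stay bounded above. -/
theorem upper (hk : 0 ≤ k) {t₀ : ℝ} (ht₀ : t₀ ∈ Ioo a T) : ∃ U, ∀ x, ∀ t ∈ Ico t₀ T, u₁ (x, t) ≤ U := by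
  have ht : Sm a T fun w : ℝ × ℝ => w.2 := fun n => contDiff_snd.contDiffOn
  have hf := h.smU.sub ht
  obtain ⟨U, hU⟩ := exists_slice_bound hf.cont (fun z hz => by simp only [h.perU z hz]) ht₀
  refine ⟨U + T, fun x t hxt => ?_⟩
  have := max_principle (σ := sig p q φ u₁ u₂) h.smP h.pos hf (fun z hz => by simp only [h.perU z hz]) ht₀ hU
    (fun w hw _ _ _ _ => ?_) x t hxt
  · linarith [hxt.2]
  rw [heat_sub h.smP h.pos hw h.smU ht, h.heat_u hw, heat_snd]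
  linarith [mul_nonneg hk (Real.exp_pos (-2 * u₁ w)).le, show Ef k u₁ w = k * Real.exp (-2 * u₁ w) from rfl]

end IsFlow

theorem gradient_crit {k C g v w Q : ℝ} (hC : 0 ≤ C) (hk : 1 ≤ k) (hg : 0 < g) (hQ : (k + 1) * (v * v) ≤ Q)
    (hbig : 1 < g * g * (v * v) - C * g) (hw : g * g * (2 * (v * v) + 2 * w) = C * g) :
    2 * k * (v * v) - g * g * (2 * Q * (v * v) + 4 * (v * v) ^ 2 + 2 * w ^ 2 + 8 * (v * v) * w) +
      C * g * (k / (g * g) + v * v) < 0 := by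
  have hw' : g * w = C / 2 - g * (v * v) := by
    refine mul_left_cancel₀ hg.ne' ?_
    linarith
  obtain ⟨X, hX⟩ : ∃ X, g * (v * v) = X := ⟨_, rfl⟩
  rw [hX] at hw'
  have hgX : 1 < g * (X - C) := by rw [← hX]; linarith
  have hXC : 0 < X - C := pos_of_mul_pos_right (one_pos.trans hgX) hg.le
  have hi : 1 / g < X - C := by rw [div_lt_iff₀ hg]; linarith
  have hv : v * v = X / g := by rw [← hX]; field_simp
  have hQ' : 2 * (k + 1) * X ^ 2 ≤ g * g * (2 * Q * (v * v)) := by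
    have := mul_le_mul_of_nonneg_left (mul_le_mul_of_nonneg_right hQ (mul_self_nonneg v))
      (by positivity : 0 ≤ 2 * (g * g))
    rw [← hX]; linarith
  have hpos : 0 < 2 * k * X + k * C := by nlinarith
  have h1 : (2 * k * X + k * C) * (1 / g) < (2 * k * X + k * C) * (X - C) := mul_lt_mul_of_pos_left hi hpos
  have key : 2 * k * (v * v) - g * g * (2 * Q * (v * v) + 4 * (v * v) ^ 2 + 2 * w ^ 2 + 8 * (v * v) * w) +
      C * g * (k / (g * g) + v * v) =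
      (2 * k * X + k * C) * (1 / g) - g * g * (2 * Q * (v * v)) - 4 * X ^ 2 - 2 * (g * w) ^ 2 - 8 * X * (g * w) +
        C * X := by
    rw [← hX]; field_simp; ring
  have e1 : 0 ≤ C * X := mul_nonneg hC (by linarith)
  have e2 : 0 ≤ k * (C * X) := mul_nonneg (by linarith) e1
  have e3 : 0 ≤ k * C ^ 2 := mul_nonneg (by linarith) (sq_nonneg C)
  rw [key, hw']
  linarith [sq_nonneg C]

namespace IsFlow

variable {p q : ℕ} {l a T : ℝ} {φ u₁ u₂ : ℝ × ℝ → ℝ}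

/-- The gradient estimate. -/
theorem gradient (h : IsFlow p q ((p : ℝ) - 1) l a T φ u₁ u₂) (hp : 2 ≤ p) {t₀ : ℝ} (ht₀ : t₀ ∈ Ioo a T) :
    ∃ C₁, 0 ≤ C₁ ∧ ∀ x, ∀ t ∈ Ico t₀ T, ((p : ℝ) - 1) * dS φ u₁ (x, t) ^ 2 ≤
      Ef ((p : ℝ) - 1) u₁ (x, t) + C₁ * √(Ef ((p : ℝ) - 1) u₁ (x, t)) := by
  have hk : (1 : ℝ) ≤ (p : ℝ) - 1 := by
    have : (2 : ℝ) ≤ p := by exact_mod_cast hp
    linarith
  obtain ⟨C₀, hC₀⟩ := exists_slice_bound ((h.smU.exp 1).mul (h.smV.mul h.smV)).cont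
    (fun z hz => by simp only [h.perU z hz, h.perV z hz]) ht₀
  set C := max C₀ 0 with hC
  have hY := (h.smU.exp 2).mul (h.smV.mul h.smV)
  have hR := (Sm.const C).mul (h.smU.exp 1)
  have hsq : ∀ w, Real.exp (2 * u₁ w) = Real.exp (1 * u₁ w) * Real.exp (1 * u₁ w) := fun w => by
    rw [← Real.exp_add]; ring_nf
  have hmain := max_principle (σ := sig p q φ u₁ u₂) h.smP h.pos (hY.sub hR)
    (M := 1) (fun z hz => by simp only [h.perU z hz, h.perV z hz]) ht₀ (fun x => ?_) (fun w hw _ hbig hD _ => ?_)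
  · refine ⟨C * √((p : ℝ) - 1), mul_nonneg (le_max_right _ _) (Real.sqrt_nonneg _), fun x t ht => ?_⟩
    have h1 := hmain x t ht
    simp only [hsq] at h1
    have hg := Real.exp_pos (1 * u₁ (x, t))
    have hE : Ef ((p : ℝ) - 1) u₁ (x, t) = ((p : ℝ) - 1) / Real.exp (1 * u₁ (x, t)) ^ 2 := by
      rw [Ef, sq, ← Real.exp_add, div_eq_mul_inv, ← Real.exp_neg]; ring_nf
    rw [hE, Real.sqrt_div (by linarith), Real.sqrt_sq hg.le]
    have e : C * √((p : ℝ) - 1) * (√((p : ℝ) - 1) / Real.exp (1 * u₁ (x, t))) =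
        C * ((p : ℝ) - 1) / Real.exp (1 * u₁ (x, t)) := by
      rw [mul_div_assoc', mul_assoc, Real.mul_self_sqrt (by linarith)]
    rw [e]
    generalize Real.exp (1 * u₁ (x, t)) = g at h1 hg ⊢
    rw [show ((p : ℝ) - 1) / g ^ 2 + C * ((p : ℝ) - 1) / g = ((p : ℝ) - 1) * (1 + C * g) / g ^ 2 by field_simp,
      le_div_iff₀ (by positivity), mul_assoc]
    exact mul_le_mul_of_nonneg_left (by linarith) (by linarith)
  · have h0 : Real.exp (1 * u₁ (x, t₀)) * (dS φ u₁ (x, t₀) * dS φ u₁ (x, t₀)) ≤ C :=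
      (hC₀ x).trans (le_max_left _ _)
    have := mul_le_mul_of_nonneg_left h0 (Real.exp_pos (1 * u₁ (x, t₀))).le
    simp only [hsq]; linarith
  · have hv : dS φ u₁ w ≠ 0 := fun h0 => by
      simp only [h0, mul_zero, zero_sub] at hbig
      linarith [mul_nonneg (le_max_right C₀ 0) (Real.exp_pos (1 * u₁ w)).le]
    rw [dS_sub hw hY hR, dS_mul hw (h.smU.exp 2) (h.smV.mul h.smV), dS_mul hw h.smV h.smV,
      dS_const_mul hw (h.smU.exp 1), dS_exp hw h.smU, dS_exp hw h.smU] at hD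
    rw [heat_sub h.smP h.pos hw hY hR, heat_mul h.smP h.pos hw (h.smU.exp 2) (h.smV.mul h.smV),
      heat_mul h.smP h.pos hw h.smV h.smV, heat_const_mul h.smP h.pos hw (h.smU.exp 1),
      heat_exp h.smP h.pos hw h.smU, heat_exp h.smP h.pos hw h.smU, dS_exp hw h.smU, dS_mul hw h.smV h.smV,
      h.heat_u hw, h.heat_v hw]
    have hEg : Ef ((p : ℝ) - 1) u₁ w = ((p : ℝ) - 1) / (Real.exp (1 * u₁ w) * Real.exp (1 * u₁ w)) := by
      rw [Ef, ← hsq, div_eq_mul_inv, ← Real.exp_neg]; ring_nf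
    have hg := Real.exp_pos (1 * u₁ w)
    have hQ : ((p : ℝ) - 1 + 1) * (dS φ u₁ w * dS φ u₁ w) ≤ Qf p q φ u₁ u₂ w := by
      simp only [Qf]
      linarith [mul_nonneg q.cast_nonneg (mul_self_nonneg (dS φ u₂ w))]
    rw [hsq] at hbig hD ⊢
    rw [hEg]
    generalize Real.exp (1 * u₁ w) = g at hbig hD hg ⊢
    generalize dS φ u₁ w = v at hbig hD hv hQ ⊢
    generalize dS φ (dS φ u₁) w = v' at hD ⊢
    generalize Qf (p : ℝ) q φ u₁ u₂ w = Q at hQ ⊢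
    have hw' : g * g * (2 * (v * v) + 2 * v') = C * g := mul_left_cancel₀ hv (by linarith)
    have := gradient_crit (le_max_right C₀ 0) hk hg hQ hbig hw'
    refine lt_of_eq_of_lt ?_ this
    field_simp; ring

/-- The Ricci curvature of the circle direction is bounded below by the fibre curvature. -/
theorem pinching (h : IsFlow p q ((p : ℝ) - 1) ((q : ℝ) - 1) a T φ u₁ u₂) (hp : 2 ≤ p) (hq : 2 ≤ q) {t₀ : ℝ} (ht₀ : t₀ ∈ Ioo a T) :
    ∃ c M, c < 1 / 2 ∧ ∀ x, ∀ t ∈ Ico t₀ T, Kf p q φ u₁ u₂ (x, t) ≤ c * Sf p q ((p : ℝ) - 1) ((q : ℝ) - 1) u₁ u₂ (x, t) + M := by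
  have hp' : (2 : ℝ) ≤ p := by exact_mod_cast hp
  have hq' : (2 : ℝ) ≤ q := by exact_mod_cast hq
  obtain ⟨c, hc, hreact⟩ := reaction_neg hp' hq'
  obtain ⟨U, hU⟩ := h.upper (cast_sub_one_nonneg (by omega)) ht₀
  obtain ⟨C₁, hC₁, hg₁⟩ := h.gradient hp ht₀
  obtain ⟨C₂, hC₂, hg₂⟩ := h.symm.gradient hq ht₀
  obtain ⟨B, -, hB⟩ := hreact (max C₁ C₂) ((p : ℝ) * (((p : ℝ) - 1) * Real.exp (-2 * U)))
    (hC₁.trans (le_max_left _ _)) (mul_pos (by linarith) (mul_pos (by linarith) (Real.exp_pos _)))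
  have hH := h.smK.sub ((Sm.const c).mul h.smS)
  have hper : Per a T fun w => Kf p q φ u₁ u₂ w - c * Sf p q ((p : ℝ) - 1) ((q : ℝ) - 1) u₁ u₂ w := fun z hz => by
    simp only [Kf, Sf, Ef, h.perU z hz, h.symm.perU z hz, h.perV z hz, h.symm.perV z hz, h.perW z hz,
      h.symm.perW z hz]
  obtain ⟨M₀, hM₀⟩ := exists_slice_bound hH.cont hper ht₀
  refine ⟨c, max B M₀, hc, fun x t ht => ?_⟩
  have hmain := max_principle (σ := sig p q φ u₁ u₂) h.smP h.pos hH hper (M := max B M₀) ht₀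
    (fun y => (hM₀ y).trans (le_max_right _ _)) (fun w hw hlt hbig _ _ => ?_) x t ht
  · linarith
  rw [heat_sub h.smP h.pos hw h.smK ((Sm.const c).mul h.smS), heat_const_mul h.smP h.pos hw h.smS, h.heat_K hw,
    h.heat_S hw]
  have hwt : w.2 ∈ Ico t₀ T := ⟨hlt.le, hw.2.2⟩
  have hE : 0 < Ef ((p : ℝ) - 1) u₁ w := mul_pos (by linarith) (Real.exp_pos _)
  have hF : 0 < Ef ((q : ℝ) - 1) u₂ w := mul_pos (by linarith) (Real.exp_pos _)
  have g₁ := hg₁ w.1 w.2 hwt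
  have g₂ := hg₂ w.1 w.2 hwt
  have hS : (p : ℝ) * (((p : ℝ) - 1) * Real.exp (-2 * U)) ≤
      (p : ℝ) * Ef ((p : ℝ) - 1) u₁ w + (q : ℝ) * Ef ((q : ℝ) - 1) u₂ w := by
    refine le_trans ?_ (le_add_of_nonneg_right (mul_nonneg q.cast_nonneg hF.le))
    exact mul_le_mul_of_nonneg_left (mul_le_mul_of_nonneg_left
      (Real.exp_le_exp.2 (by linarith [hU w.1 w.2 hwt])) (by linarith)) (by linarith)
  refine hB _ _ _ _ _ _ hE.le hF.le
    (g₁.trans (add_le_add_right (mul_le_mul_of_nonneg_right (le_max_left _ _) (Real.sqrt_nonneg _)) _))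
    (g₂.trans (add_le_add_right (mul_le_mul_of_nonneg_right (le_max_right _ _) (Real.sqrt_nonneg _)) _)) hS ?_
  simp only [sq]
  have := (le_max_left B M₀).trans_lt hbig
  simp only [Kf, Sf] at this
  linarith

/-- At a spatial minimum of the log-volume of the fibres the fibre curvature is controlled. -/
theorem min_bound {k : ℝ} (h : IsFlow p q k l a T φ u₁ u₂) {t₀ C c M : ℝ} (ht₀ : t₀ ∈ Ioo a T) (hc : c < 1 / 2)
    (hK : ∀ x, ∀ t ∈ Ico t₀ T, Kf p q φ u₁ u₂ (x, t) ≤ c * Sf p q k l u₁ u₂ (x, t) + M)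
    (hR : ∀ z ∈ slab a T, scal p q k l φ u₁ u₂ z ≤ C) :
    ∀ t ∈ Ico t₀ T, ∃ y, (∀ x, (p : ℝ) * u₁ (y, t) + (q : ℝ) * u₂ (y, t) ≤ (p : ℝ) * u₁ (x, t) + (q : ℝ) * u₂ (x, t)) ∧
      Sf p q k l u₁ u₂ (y, t) ≤ (C + 2 * M) / (1 - 2 * c) := by
  intro t ht
  have hmem : ∀ y : ℝ, (y, t) ∈ slab a T := fun y => ⟨mem_univ _, ht₀.1.trans_le ht.1, ht.2⟩
  let W : ℝ × ℝ → ℝ := fun w => (p : ℝ) * u₁ w + (q : ℝ) * u₂ w
  have hW : Sm a T W := ((Sm.const _).mul h.smU).add ((Sm.const _).mul h.symm.smU)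
  have hWper : Per a T W := fun z hz => by simp only [W, h.perU z hz, h.symm.perU z hz]
  obtain ⟨y, -, hmin⟩ := (isCompact_Icc (a := (0:ℝ)) (b := 1)).exists_isMinOn (nonempty_Icc.2 zero_le_one)
    (hW.cont.comp (by fun_prop : Continuous fun y : ℝ => (y, t)).continuousOn fun y _ => hmem y)
  have hall : ∀ y', W (y, t) ≤ W (y', t) := fun y' => by
    obtain ⟨y'', hy'', he⟩ := hWper.reduce (hmem y')
    rw [← he]; exact hmin hy''
  have hder : dX W (y, t) = 0 :=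
    IsLocalMin.hasDerivAt_eq_zero (f := fun y' => W (y', t)) (Filter.Eventually.of_forall hall)
      (hasDerivAt_slice_x hW (hmem y))
  have hσ : dS φ W (y, t) = 0 := by rw [dS, hder, zero_div]
  rw [dS_add (hmem y) ((Sm.const _).mul h.smU) ((Sm.const _).mul h.symm.smU), dS_const_mul (hmem y) h.smU,
    dS_const_mul (hmem y) h.symm.smU] at hσ
  have h1 := hR _ (hmem y)
  have h2 := hK y t ht
  simp only [scal, hσ, Kf, Sf, Ef, sq, mul_zero, sub_zero] at h1 h2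
  have hQ : 0 ≤ (p : ℝ) * (dS φ u₁ (y, t) * dS φ u₁ (y, t)) + (q : ℝ) * (dS φ u₂ (y, t) * dS φ u₂ (y, t)) :=
    add_nonneg (mul_nonneg p.cast_nonneg (mul_self_nonneg _)) (mul_nonneg q.cast_nonneg (mul_self_nonneg _))
  refine ⟨y, hall, ?_⟩
  rw [le_div_iff₀ (by linarith)]
  simp only [Sf, Ef]; linarith

theorem log_low {k u b : ℝ} (hk : 2 ≤ k) (hu : k * ((k - 1) * Real.exp (-2 * u)) ≤ b) :
    -(Real.log (b / (k * (k - 1)))) / 2 ≤ u := by
  have hkk : 0 < k * (k - 1) := mul_pos (by linarith) (by linarith)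
  have h4 : Real.exp (-2 * u) ≤ b / (k * (k - 1)) := by rw [le_div_iff₀ hkk]; linarith
  have := (Real.le_log_iff_exp_le ((Real.exp_pos _).trans_le h4)).2 h4
  linarith

/-- A bound on the scalar curvature bounds the warping functions from below. -/
theorem lower (h : IsFlow p q ((p : ℝ) - 1) ((q : ℝ) - 1) a T φ u₁ u₂) (hp : 2 ≤ p) (hq : 2 ≤ q) {t₀ C : ℝ} (ht₀ : t₀ ∈ Ioo a T) (hR : ∀ z ∈ slab a T, scal p q ((p : ℝ) - 1) ((q : ℝ) - 1) φ u₁ u₂ z ≤ C) :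
    ∃ L, ∀ x, ∀ t ∈ Ico t₀ T, L ≤ u₁ (x, t) := by
  have hp' : (2 : ℝ) ≤ p := by exact_mod_cast hp
  have hq' : (2 : ℝ) ≤ q := by exact_mod_cast hq
  obtain ⟨c, M, hc, hK⟩ := h.pinching hp hq ht₀
  obtain ⟨U, hU⟩ := h.symm.upper (cast_sub_one_nonneg (by omega)) ht₀
  set b := (C + 2 * M) / (1 - 2 * c) with hb
  let lo : ℝ → ℝ := fun k => -(Real.log (b / (k * (k - 1)))) / 2
  refine ⟨((p : ℝ) * lo p + (q : ℝ) * lo q - (q : ℝ) * U) / p, fun x t ht => ?_⟩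
  obtain ⟨y, hall, hy⟩ := h.min_bound ht₀ hc hK hR t ht
  simp only [Sf, Ef] at hy
  have hp1 : 0 ≤ (p : ℝ) * (((p : ℝ) - 1) * Real.exp (-2 * u₁ (y, t))) :=
    mul_nonneg (by linarith) (mul_nonneg (by linarith) (Real.exp_pos _).le)
  have hq1 : 0 ≤ (q : ℝ) * (((q : ℝ) - 1) * Real.exp (-2 * u₂ (y, t))) :=
    mul_nonneg (by linarith) (mul_nonneg (by linarith) (Real.exp_pos _).le)
  have l₁ := mul_le_mul_of_nonneg_left (log_low (u := u₁ (y, t)) (b := b) hp' (by linarith)) p.cast_nonneg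
  have l₂ := mul_le_mul_of_nonneg_left (log_low (u := u₂ (y, t)) (b := b) hq' (by linarith)) q.cast_nonneg
  have l₃ := hall x
  have l₄ := mul_le_mul_of_nonneg_left (hU x t ht) q.cast_nonneg
  rw [div_le_iff₀ (by linarith)]
  simp only [lo]
  linarith

/-- Bounded scalar curvature bounds the warping function and its first derivative. -/
theorem first_bounds (h : IsFlow p q ((p : ℝ) - 1) ((q : ℝ) - 1) a T φ u₁ u₂) (hp : 2 ≤ p) (hq : 2 ≤ q) {t₀ C : ℝ} (ht₀ : t₀ ∈ Ioo a T) (hR : ∀ z ∈ slab a T, scal p q ((p : ℝ) - 1) ((q : ℝ) - 1) φ u₁ u₂ z ≤ C) :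
    ∃ M, 0 ≤ M ∧ ∀ x, ∀ t ∈ Ico t₀ T, |u₁ (x, t)| ≤ M ∧ Ef ((p : ℝ) - 1) u₁ (x, t) ≤ M ∧
      dS φ u₁ (x, t) ^ 2 ≤ M := by
  have hk : (1 : ℝ) ≤ (p : ℝ) - 1 := by
    have : (2 : ℝ) ≤ p := by exact_mod_cast hp
    linarith
  obtain ⟨U, hU⟩ := h.upper (cast_sub_one_nonneg (by omega)) ht₀
  obtain ⟨L, hL⟩ := h.lower hp hq ht₀ hR
  obtain ⟨C₁, hC₁, hg⟩ := h.gradient hp ht₀
  set e := ((p : ℝ) - 1) * Real.exp (-2 * L) with he
  have he0 : 0 ≤ e := mul_nonneg (by linarith) (Real.exp_pos _).le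
  refine ⟨|U| + |L| + e + (e + C₁ * √e), by positivity, fun x t ht => ?_⟩
  have h1 := hU x t ht
  have h2 := hL x t ht
  have h3 : Ef ((p : ℝ) - 1) u₁ (x, t) ≤ e :=
    mul_le_mul_of_nonneg_left (Real.exp_le_exp.2 (by linarith)) (by linarith)
  have h4 := hg x t ht
  have h5 := mul_le_mul_of_nonneg_left (Real.sqrt_le_sqrt h3) hC₁
  have h6 := le_mul_of_one_le_left (sq_nonneg (dS φ u₁ (x, t))) hk
  have h7 : 0 ≤ C₁ * √e := mul_nonneg hC₁ (Real.sqrt_nonneg _)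
  refine ⟨abs_le.2 ⟨?_, ?_⟩, ?_, ?_⟩ <;>
    linarith [le_abs_self U, abs_nonneg U, neg_abs_le L, abs_nonneg L]

end IsFlow

end

end Vale.Agent.P244
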