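import Mathlib
import Vale.Agent.P244.Defs
import Vale.Agent.P244.Calculus
import Vale.Agent.P244.Estimates
import Vale.Agent.P244.AlgebraSemi

/-!
# P244: a priori estimates when one fibre constant is nonpositive
-/

open Set

namespace Vale.Agent.P244

noncomputable section

namespace IsFlow

variable {p q : ℕ} {k l a T : ℝ} {φ u₁ u₂ : ℝ × ℝ → ℝ}

/-- A fibre with nonpositive constant neither grows nor collapses in finite time. -/
theorem semi_bound (h : IsFlow p q k l a T φ u₁ u₂) (hk : k ≤ 0) {t₀ : ℝ} (ht₀ : t₀ ∈ Ioo a T) :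
    ∃ M, 0 ≤ M ∧ ∀ x, ∀ t ∈ Ico t₀ T, |u₁ (x, t)| ≤ M ∧ |Ef k u₁ (x, t)| ≤ M := by
  have ht : Sm a T fun w : ℝ × ℝ => w.2 := fun n => contDiff_snd.contDiffOn
  have hf := ((Sm.const (-1 : ℝ)).mul h.smU).sub ht
  obtain ⟨L₀, hL₀⟩ := exists_slice_bound hf.cont (fun z hz => by simp only [h.perU z hz]) ht₀
  have hlow : ∀ x, ∀ t ∈ Ico t₀ T, -(L₀ + T) ≤ u₁ (x, t) := fun x t hxt => by
    have := max_principle (σ := sig p q φ u₁ u₂) h.smP h.pos hf (fun z hz => by simp only [h.perU z hz]) ht₀ hL₀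
      (fun w hw _ _ _ _ => ?_) x t hxt
    · linarith [hxt.2]
    rw [heat_sub h.smP h.pos hw ((Sm.const (-1 : ℝ)).mul h.smU) ht, heat_const_mul h.smP h.pos hw h.smU,
      h.heat_u hw, heat_snd]
    linarith [mul_nonpos_of_nonpos_of_nonneg hk (Real.exp_pos (-2 * u₁ w)).le,
      show Ef k u₁ w = k * Real.exp (-2 * u₁ w) from rfl]
  obtain ⟨e, he⟩ : ∃ e, e = -k * Real.exp (2 * (L₀ + T)) := ⟨_, rfl⟩
  have he0 : 0 ≤ e := he ▸ mul_nonneg (by linarith) (Real.exp_pos _).le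
  have hE : ∀ x, ∀ t ∈ Ico t₀ T, |Ef k u₁ (x, t)| ≤ e := fun x t hxt => by
    rw [Ef, abs_of_nonpos (mul_nonpos_of_nonpos_of_nonneg hk (Real.exp_pos _).le), he, neg_mul_eq_neg_mul]
    exact mul_le_mul_of_nonneg_left (Real.exp_le_exp.2 (by linarith [hlow x t hxt])) (by linarith)
  have hg := h.smU.sub ((Sm.const (e + 1)).mul ht)
  obtain ⟨U₀, hU₀⟩ := exists_slice_bound hg.cont (fun z hz => by simp only [h.perU z hz]) ht₀
  refine ⟨|U₀| + |(e + 1) * T| + |L₀ + T| + e, by positivity, fun x t hxt => ⟨?_, ?_⟩⟩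
  · have := max_principle (σ := sig p q φ u₁ u₂) h.smP h.pos hg (fun z hz => by simp only [h.perU z hz]) ht₀ hU₀
      (fun w hw hlt _ _ _ => ?_) x t hxt
    · have h1 := mul_le_mul_of_nonneg_left hxt.2.le (by linarith : 0 ≤ e + 1)
      refine abs_le.2 ⟨?_, ?_⟩ <;>
        linarith [le_abs_self U₀, abs_nonneg U₀, le_abs_self ((e + 1) * T), abs_nonneg ((e + 1) * T),
          le_abs_self (L₀ + T), abs_nonneg (L₀ + T), hlow x t hxt]
    rw [heat_sub h.smP h.pos hw h.smU ((Sm.const (e + 1)).mul ht), heat_const_mul h.smP h.pos hw ht,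
      h.heat_u hw, heat_snd]
    linarith [(abs_le.1 (hE w.1 w.2 ⟨hlt.le, hw.2.2⟩)).1]
  · linarith [hE x t hxt, abs_nonneg U₀, abs_nonneg ((e + 1) * T), abs_nonneg (L₀ + T)]

/-- The slope of such a fibre stays bounded. -/
theorem semi_slope (h : IsFlow p q k l a T φ u₁ u₂) (hp : 1 ≤ p) (hk : k ≤ 0) {t₀ : ℝ} (ht₀ : t₀ ∈ Ioo a T) :
    ∃ X, 0 ≤ X ∧ ∀ x, ∀ t ∈ Ico t₀ T, dS φ u₁ (x, t) ^ 2 ≤ X := by
  have hf := h.smV.mul h.smV
  obtain ⟨M₀, hM₀⟩ := exists_slice_bound hf.cont (fun z hz => by simp only [h.perV z hz]) ht₀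
  refine ⟨max M₀ 0, le_max_right _ _, fun x t hxt => ?_⟩
  have := max_principle (σ := sig p q φ u₁ u₂) h.smP h.pos hf (fun z hz => by simp only [h.perV z hz])
    (M := max M₀ 0) ht₀ (fun y => (hM₀ y).trans (le_max_left _ _)) (fun w hw _ hbig _ _ => ?_) x t hxt
  · rw [sq]; exact this
  rw [heat_mul h.smP h.pos hw h.smV h.smV, h.heat_v hw]
  have hv : 0 < dS φ u₁ w * dS φ u₁ w := (le_max_right M₀ 0).trans_lt hbig
  have hp' : (1 : ℝ) ≤ p := by exact_mod_cast hp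
  have hQ : dS φ u₁ w * dS φ u₁ w ≤ Qf p q φ u₁ u₂ w := by
    simp only [Qf]
    linarith [mul_nonneg q.cast_nonneg (mul_self_nonneg (dS φ u₂ w)), le_mul_of_one_le_left hv.le hp']
  have hE : Ef k u₁ w ≤ 0 := mul_nonpos_of_nonpos_of_nonneg hk (Real.exp_pos _).le
  linarith [mul_self_nonneg (dS φ (dS φ u₁) w), mul_pos (hv.trans_le hQ) hv,
    mul_nonpos_of_nonpos_of_nonneg hE hv.le]

theorem pinching_semi (h : IsFlow p q k ((q : ℝ) - 1) a T φ u₁ u₂) (hp : 1 ≤ p) (hq : 2 ≤ q) (hk : k ≤ 0)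
    {t₀ : ℝ} (ht₀ : t₀ ∈ Ioo a T) :
    ∃ c M, c < 1 / 2 ∧
      ∀ x, ∀ t ∈ Ico t₀ T, Kf p q φ u₁ u₂ (x, t) ≤ c * Sf p q k ((q : ℝ) - 1) u₁ u₂ (x, t) + M := by
  have hp' : (1 : ℝ) ≤ p := by exact_mod_cast hp
  have hq' : (2 : ℝ) ≤ q := by exact_mod_cast hq
  obtain ⟨c, hc, hreact⟩ := reaction_neg_semi hp' hq'
  obtain ⟨N, hN0, hN⟩ := h.semi_bound hk ht₀
  obtain ⟨X, hX, hg₁⟩ := h.semi_slope hp hk ht₀
  obtain ⟨C₂, hC₂, hg₂⟩ := h.symm.gradient hq ht₀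
  obtain ⟨B, -, hB⟩ := hreact C₂ N X hC₂ hN0 hX
  have hH := h.smK.sub ((Sm.const c).mul h.smS)
  have hper : Per a T fun w => Kf p q φ u₁ u₂ w - c * Sf p q k ((q : ℝ) - 1) u₁ u₂ w := fun z hz => by
    simp only [Kf, Sf, Ef, h.perU z hz, h.symm.perU z hz, h.perV z hz, h.symm.perV z hz, h.perW z hz,
      h.symm.perW z hz]
  obtain ⟨M₀, hM₀⟩ := exists_slice_bound hH.cont hper ht₀
  refine ⟨c, max B M₀, hc, fun x t ht => ?_⟩
  have hmain := max_principle (σ := sig p q φ u₁ u₂) h.smP h.pos hH hper (M := max B M₀) ht₀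
    (fun y => (hM₀ y).trans (le_max_right _ _)) (fun w hw hlt hbig _ _ => ?_) x t ht
  · linarith
  rw [heat_sub h.smP h.pos hw h.smK ((Sm.const c).mul h.smS), heat_const_mul h.smP h.pos hw h.smS, h.heat_K hw,
    h.heat_S hw]
  have hwt : w.2 ∈ Ico t₀ T := ⟨hlt.le, hw.2.2⟩
  have hF : 0 ≤ Ef ((q : ℝ) - 1) u₂ w := mul_nonneg (by linarith) (Real.exp_pos _).le
  refine hB _ _ _ _ _ _ (hN w.1 w.2 hwt).2 hF (hg₁ w.1 w.2 hwt) (hg₂ w.1 w.2 hwt) ?_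
  simp only [sq]
  have := (le_max_left B M₀).trans_lt hbig
  simp only [Kf, Sf] at this
  linarith

theorem first_bounds_semi (h : IsFlow p q k ((q : ℝ) - 1) a T φ u₁ u₂) (hp : 1 ≤ p) (hq : 2 ≤ q) (hk : k ≤ 0)
    {t₀ C : ℝ} (ht₀ : t₀ ∈ Ioo a T) (hR : ∀ z ∈ slab a T, scal p q k ((q : ℝ) - 1) φ u₁ u₂ z ≤ C) :
    ∃ M, 0 ≤ M ∧ ∀ x, ∀ t ∈ Ico t₀ T,
      |u₂ (x, t)| ≤ M ∧ Ef ((q : ℝ) - 1) u₂ (x, t) ≤ M ∧ dS φ u₂ (x, t) ^ 2 ≤ M := by
  have hp' : (1 : ℝ) ≤ p := by exact_mod_cast hp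
  have hq' : (2 : ℝ) ≤ q := by exact_mod_cast hq
  obtain ⟨N, hN0, hN⟩ := h.semi_bound hk ht₀
  obtain ⟨U, hU⟩ := h.symm.upper (cast_sub_one_nonneg (by omega)) ht₀
  obtain ⟨C₂, hC₂, hg⟩ := h.symm.gradient hq ht₀
  obtain ⟨c, M, hc, hK⟩ := h.pinching_semi hp hq hk ht₀
  set L := -(Real.log (((C + 2 * M) / (1 - 2 * c) + p * N) / ((q : ℝ) * ((q : ℝ) - 1)))) / 2 - 2 * p * N / q
    with hL
  set e := ((q : ℝ) - 1) * Real.exp (-2 * L) with he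
  have he0 : 0 ≤ e := mul_nonneg (by linarith) (Real.exp_pos _).le
  refine ⟨|U| + |L| + e + (e + C₂ * √e), by positivity, fun x t ht => ?_⟩
  obtain ⟨y, hall, hy⟩ := h.min_bound ht₀ hc hK hR t ht
  have hE := abs_le.1 (hN y t ht).2
  have hy' : (q : ℝ) * (((q : ℝ) - 1) * Real.exp (-2 * u₂ (y, t))) ≤ (C + 2 * M) / (1 - 2 * c) + p * N := by
    simp only [Sf] at hy
    have := mul_le_mul_of_nonneg_left hE.1 p.cast_nonneg
    have e₂ : Ef ((q : ℝ) - 1) u₂ (y, t) = ((q : ℝ) - 1) * Real.exp (-2 * u₂ (y, t)) := rfl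
    rw [e₂] at hy
    linarith
  have l₁ := log_low (u := u₂ (y, t)) hq' hy'
  have l₂ := abs_le.1 (hN x t ht).1
  have l₃ := abs_le.1 (hN y t ht).1
  have l₄ := hall x
  have h2 : L ≤ u₂ (x, t) := by
    refine le_of_mul_le_mul_left ?_ (by linarith : (0:ℝ) < q)
    rw [hL, mul_sub, mul_div_cancel₀ _ (by linarith : (q:ℝ) ≠ 0)]
    linarith [mul_le_mul_of_nonneg_left l₁ q.cast_nonneg, mul_le_mul_of_nonneg_left l₂.2 p.cast_nonneg,
      mul_le_mul_of_nonneg_left l₃.1 p.cast_nonneg]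
  have h3 : Ef ((q : ℝ) - 1) u₂ (x, t) ≤ e :=
    mul_le_mul_of_nonneg_left (Real.exp_le_exp.2 (by linarith)) (by linarith)
  have h4 := hg x t ht
  have h5 := mul_le_mul_of_nonneg_left (Real.sqrt_le_sqrt h3) hC₂
  have h6 := le_mul_of_one_le_left (sq_nonneg (dS φ u₂ (x, t))) (by linarith : (1:ℝ) ≤ q - 1)
  have h7 : 0 ≤ C₂ * √e := mul_nonneg hC₂ (Real.sqrt_nonneg _)
  have h1 := hU x t ht
  refine ⟨abs_le.2 ⟨?_, ?_⟩, ?_, ?_⟩ <;>
    linarith [le_abs_self U, abs_nonneg U, neg_abs_le L, abs_nonneg L]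

/-- Adding a constant to a warping function rescales its fibre constant. -/
theorem shift (h : IsFlow p q k l a T φ u₁ u₂) (c : ℝ) :
    IsFlow p q (k * Real.exp (2 * c)) l a T φ (fun z => u₁ z + c) u₂ := by
  have e₁ : dS φ (fun z => u₁ z + c) = dS φ u₁ := funext fun z => by simp only [dS, dX, fderiv_add_const]
  have e₂ : dT (fun z => u₁ z + c) = dT u₁ := funext fun z => by simp only [dT, fderiv_add_const]
  refine ⟨h.smoothφ, fun n => (h.smooth₁ n).add contDiffOn_const, h.smooth₂, h.pos,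
    fun x t => ⟨(h.periodic x t).1, by rw [(h.periodic x t).2.1], (h.periodic x t).2.2⟩,
    fun z hz => ?_, fun z hz => ?_, fun z hz => ?_⟩
  · rw [e₁]; exact h.eqφ z hz
  · rw [e₁, e₂, h.eq₁ z hz, mul_assoc k, ← Real.exp_add]; ring_nf
  · rw [e₁]; exact h.eq₂ z hz

omit k l in
theorem scal_shift (p q : ℕ) (k l : ℝ) (φ u₁ u₂ : ℝ × ℝ → ℝ) (c : ℝ) (z : ℝ × ℝ) :
    scal p q (k * Real.exp (2 * c)) l φ (fun z => u₁ z + c) u₂ z = scal p q k l φ u₁ u₂ z := by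
  have e₁ : dS φ (fun z => u₁ z + c) = dS φ u₁ := funext fun z => by simp only [dS, dX, fderiv_add_const]
  simp only [scal, e₁]
  rw [show (p : ℝ) * (k * Real.exp (2 * c)) * Real.exp (-2 * (u₁ z + c)) = (p : ℝ) * k * Real.exp (-2 * u₁ z) by
    rw [mul_assoc, mul_assoc k, ← Real.exp_add]; ring_nf]

end IsFlow

end

end Vale.Agent.P244
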