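import Mathlib
import Vale.Agent.P244.Defs
import Vale.Agent.P244.Calculus
import Vale.Agent.P244.Estimates

/-!
# P244: the second derivatives of the warping functions stay bounded
-/

open Set

namespace Vale.Agent.P244

noncomputable section

theorem second_alg {E Q D v w m n : ℝ} (hE : |E| ≤ m) (hv : v * v ≤ n) (hQ : 0 ≤ Q) :
    2 * w * (-2 * Q * w - 2 * v * D + 2 * E * (w - 2 * (v * v))) + 4 * v * w * D ≤
      4 * (m * (1 + n)) * (w * w + 1) := by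
  have hm : 0 ≤ m := (abs_nonneg E).trans hE
  have hn : 0 ≤ n := (mul_self_nonneg v).trans hv
  have hE' := abs_le.1 hE
  have h1 : 0 ≤ Q * (w * w) := mul_nonneg hQ (mul_self_nonneg w)
  have h2 : E * (w * w) ≤ m * (w * w) := mul_le_mul_of_nonneg_right hE'.2 (mul_self_nonneg w)
  have hg : |E * (v * v)| ≤ m * n := by
    rw [abs_mul, abs_of_nonneg (mul_self_nonneg v)]
    exact mul_le_mul hE hv (mul_self_nonneg v) hm
  have h3 : -(E * (v * v)) * (2 * w) ≤ m * n * (w * w + 1) := by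
    refine (le_abs_self _).trans ?_
    rw [abs_mul, abs_neg]
    exact mul_le_mul hg (abs_le.2 ⟨by nlinarith [sq_nonneg (w + 1)], by nlinarith [sq_nonneg (w - 1)]⟩)
      (abs_nonneg _) (mul_nonneg hm hn)
  linarith [mul_nonneg hm hn]

namespace IsFlow

variable {p q : ℕ} {k l a T : ℝ} {φ u₁ u₂ : ℝ × ℝ → ℝ} (h : IsFlow p q k l a T φ u₁ u₂)
include h

theorem second_bounds (hp : 1 ≤ p) (hq : 1 ≤ q) {t₀ M₁ M₂ : ℝ} (ht₀ : t₀ ∈ Ioo a T) (hM₁0 : 0 ≤ M₁)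
    (hM₁ : ∀ x, ∀ t ∈ Ico t₀ T, |u₁ (x, t)| ≤ M₁ ∧ |Ef k u₁ (x, t)| ≤ M₁ ∧ dS φ u₁ (x, t) ^ 2 ≤ M₁)
    (hM₂ : ∀ x, ∀ t ∈ Ico t₀ T, |u₂ (x, t)| ≤ M₂ ∧ |Ef l u₂ (x, t)| ≤ M₂ ∧ dS φ u₂ (x, t) ^ 2 ≤ M₂) :
    ∃ M, ∀ x, ∀ t ∈ Ico t₀ T, |dS φ (dS φ u₁) (x, t)| ≤ M ∧ |dS φ (dS φ u₂) (x, t)| ≤ M := by
  set m := max M₁ M₂ with hm
  have hm0 : 0 ≤ m := hM₁0.trans (le_max_left _ _)
  set A := 4 * (m * (1 + m)) * ((p : ℝ) + q + 1) with hA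
  have hA0 : 0 ≤ A := by positivity
  have hww₁ := h.smW.mul h.smW
  have hww₂ := h.symm.smW.mul h.symm.smW
  have hN := (((Sm.const (p : ℝ)).mul hww₁).add ((Sm.const (q : ℝ)).mul hww₂)).add (Sm.const (1 : ℝ))
  have hsnd : Sm a T fun z : ℝ × ℝ => z.2 := fun n => contDiff_snd.contDiffOn
  have hG := (hsnd.exp (-(A + 1))).mul hN
  have hper : Per a T fun z => Real.exp (-(A + 1) * z.2) *
      ((p : ℝ) * (dS φ (dS φ u₁) z * dS φ (dS φ u₁) z) + (q : ℝ) * (dS φ (dS φ u₂) z * dS φ (dS φ u₂) z) + 1) :=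
    fun z hz => by simp only [h.perW z hz, h.symm.perW z hz]
  obtain ⟨G₀, hG₀⟩ := exists_slice_bound hG.cont hper ht₀
  have hmain := max_principle (σ := sig p q φ u₁ u₂) h.smP h.pos hG hper ht₀ hG₀ fun w hw hlt _ _ _ => ?_
  · refine ⟨1 + G₀ * Real.exp ((A + 1) * T), fun x t ht => ?_⟩
    have h1 := hmain x t ht
    generalize dS φ (dS φ u₁) (x, t) = w₁ at h1 ⊢
    generalize dS φ (dS φ u₂) (x, t) = w₂ at h1 ⊢
    have n₁ : 0 ≤ (p : ℝ) * (w₁ * w₁) := mul_nonneg p.cast_nonneg (mul_self_nonneg _)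
    have n₂ : 0 ≤ (q : ℝ) * (w₂ * w₂) := mul_nonneg q.cast_nonneg (mul_self_nonneg _)
    have hG0 : 0 ≤ G₀ := le_trans (mul_nonneg (Real.exp_pos _).le (by linarith)) h1
    have h2 : (p : ℝ) * (w₁ * w₁) + (q : ℝ) * (w₂ * w₂) + 1 ≤ G₀ * Real.exp ((A + 1) * T) := by
      have e : Real.exp ((A + 1) * t) * Real.exp (-(A + 1) * t) = 1 := by
        rw [← Real.exp_add, ← Real.exp_zero]; ring_nf
      have h3 := mul_le_mul_of_nonneg_left h1 (Real.exp_pos ((A + 1) * t)).le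
      rw [← mul_assoc, e, one_mul, mul_comm (Real.exp ((A + 1) * t))] at h3
      refine h3.trans (mul_le_mul_of_nonneg_left (Real.exp_le_exp.2 ?_) hG0)
      exact mul_le_mul_of_nonneg_left ht.2.le (by linarith)
    have habs : ∀ k : ℕ, 1 ≤ k → ∀ w : ℝ, |w| ≤ 1 + (k : ℝ) * (w * w) := fun k hk w => by
      have hk' : (1 : ℝ) ≤ k := by exact_mod_cast hk
      have := mul_le_mul_of_nonneg_right hk' (mul_self_nonneg w)
      refine abs_le.2 ⟨?_, ?_⟩ <;> nlinarith [sq_nonneg (w + 1 / 2), sq_nonneg (w - 1 / 2)]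
    exact ⟨(habs p hp w₁).trans (by linarith), (habs q hq w₂).trans (by linarith)⟩
  have f₁ := h.heat_w hw
  have f₂ := h.symm.heat_w hw
  rw [h.sig_symm, h.Qf_symm] at f₂
  rw [heat_mul h.smP h.pos hw (hsnd.exp (-(A + 1))) hN, heat_exp h.smP h.pos hw hsnd,
    dS_exp hw hsnd, dS_snd, heat_snd,
    heat_add h.smP h.pos hw (((Sm.const (p : ℝ)).mul hww₁).add ((Sm.const (q : ℝ)).mul hww₂)) (Sm.const (1 : ℝ)),
    heat_add h.smP h.pos hw ((Sm.const (p : ℝ)).mul hww₁) ((Sm.const (q : ℝ)).mul hww₂),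
    heat_const_mul h.smP h.pos hw hww₁, heat_const_mul h.smP h.pos hw hww₂,
    heat_mul h.smP h.pos hw h.smW h.smW, heat_mul h.smP h.pos hw h.symm.smW h.symm.smW, f₁, f₂]
  have e0 : heat φ (sig p q φ u₁ u₂) (fun _ => (1 : ℝ)) w = 0 := by
    have : dS φ (fun _ : ℝ × ℝ => (1 : ℝ)) = fun _ => 0 := funext fun z => by simp [dS, dX]
    rw [heat, this]; simp [dS, dX, dT]
  rw [e0]
  have hwt : w.2 ∈ Ico t₀ T := ⟨hlt.le, hw.2.2⟩
  obtain ⟨-, a₁, b₁⟩ := hM₁ w.1 w.2 hwt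
  obtain ⟨-, a₂, b₂⟩ := hM₂ w.1 w.2 hwt
  simp only [Prod.mk.eta, sq] at a₁ b₁ a₂ b₂
  have hQ : 0 ≤ Qf p q φ u₁ u₂ w :=
    add_nonneg (mul_nonneg p.cast_nonneg (mul_self_nonneg _)) (mul_nonneg q.cast_nonneg (mul_self_nonneg _))
  set D := (p : ℝ) * dS φ u₁ w * dS φ (dS φ u₁) w + (q : ℝ) * dS φ u₂ w * dS φ (dS φ u₂) w with hD
  rw [show (q : ℝ) * dS φ u₂ w * dS φ (dS φ u₂) w + (p : ℝ) * dS φ u₁ w * dS φ (dS φ u₁) w = D by rw [hD]; ring]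
  have s₁ := mul_le_mul_of_nonneg_left (second_alg (D := D) (w := dS φ (dS φ u₁) w)
    (a₁.trans (le_max_left M₁ M₂)) (b₁.trans (le_max_left M₁ M₂)) hQ) p.cast_nonneg
  have s₂ := mul_le_mul_of_nonneg_left (second_alg (D := D) (w := dS φ (dS φ u₂) w)
    (a₂.trans (le_max_right M₁ M₂)) (b₂.trans (le_max_right M₁ M₂)) hQ) q.cast_nonneg
  rw [← hm] at s₁ s₂
  have hex := Real.exp_pos (-(A + 1) * w.2)
  generalize Real.exp (-(A + 1) * w.2) = e at hex ⊢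
  generalize dS φ (dS φ u₁) w = w₁ at s₁ hD ⊢
  generalize dS φ (dS φ u₂) w = w₂ at s₂ hD ⊢
  generalize dS φ (dS φ (dS φ u₁)) w = g₁
  generalize dS φ (dS φ (dS φ u₂)) w = g₂
  have n₁ : 0 ≤ (p : ℝ) * (w₁ * w₁) := mul_nonneg p.cast_nonneg (mul_self_nonneg _)
  have n₂ : 0 ≤ (q : ℝ) * (w₂ * w₂) := mul_nonneg q.cast_nonneg (mul_self_nonneg _)
  have hmm : 0 ≤ 4 * (m * (1 + m)) := by positivity
  have key : 4 * (m * (1 + m)) * ((p : ℝ) * (w₁ * w₁) + (q : ℝ) * (w₂ * w₂) + p + q) ≤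
      A * ((p : ℝ) * (w₁ * w₁) + (q : ℝ) * (w₂ * w₂) + 1) := by
    rw [hA, mul_assoc (4 * (m * (1 + m)))]
    refine mul_le_mul_of_nonneg_left ?_ hmm
    have e3 : 0 ≤ ((p : ℝ) + q) * ((p : ℝ) * (w₁ * w₁) + (q : ℝ) * (w₂ * w₂)) :=
      mul_nonneg (by positivity) (by linarith)
    linarith
  have hD2 : 0 ≤ D * D := mul_self_nonneg D
  have hg : 0 ≤ (p : ℝ) * (g₁ * g₁) + (q : ℝ) * (g₂ * g₂) :=
    add_nonneg (mul_nonneg p.cast_nonneg (mul_self_nonneg _)) (mul_nonneg q.cast_nonneg (mul_self_nonneg _))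
  have hDD : ((p : ℝ) * dS φ u₁ w * w₁ + (q : ℝ) * dS φ u₂ w * w₂) * D = D * D := by rw [← hD]
  have hfin := fun X => mul_neg_of_pos_of_neg (b := X) hex
  refine lt_of_eq_of_lt ?_ (hfin (((p : ℝ) * (2 * w₁ * (-2 * Qf p q φ u₁ u₂ w * w₁ - 2 * dS φ u₁ w * D +
      2 * Ef k u₁ w * (w₁ - 2 * (dS φ u₁ w * dS φ u₁ w))) - 2 * g₁ * g₁) +
    (q : ℝ) * (2 * w₂ * (-2 * Qf p q φ u₁ u₂ w * w₂ - 2 * dS φ u₂ w * D +
      2 * Ef l u₂ w * (w₂ - 2 * (dS φ u₂ w * dS φ u₂ w))) - 2 * g₂ * g₂)) -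
    (A + 1) * ((p : ℝ) * (w₁ * w₁) + (q : ℝ) * (w₂ * w₂) + 1)) ?_)
  · ring
  · linarith

end IsFlow

end

end Vale.Agent.P244
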